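import Vale.Agent.Egypt.Greedy

namespace Vale.Agent.Egypt

open Finset

lemma recip_div {N d : ℕ} (hN : 0 < N) (hd : d ∣ N) : (1 / ((N / d : ℕ) : ℚ)) = d / N := by
  obtain ⟨c, rfl⟩ := hd
  have hd0 : 0 < d := Nat.pos_of_mul_pos_right hN
  have hc0 : 0 < c := Nat.pos_of_mul_pos_left hN
  rw [Nat.mul_div_cancel_left _ hd0]
  push_cast
  field_simp

lemma div_injOn {N : ℕ} (hN : 0 < N) {S : Finset ℕ} (hS : ∀ d ∈ S, d ∣ N) :
    Set.InjOn (fun d => N / d) (S : Set ℕ) := by
  intro d hd e he hde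
  have h1 := recip_div hN (hS d hd)
  have h2 := recip_div hN (hS e he)
  simp only at hde
  rw [hde, h2] at h1
  have hNq : (N : ℚ) ≠ 0 := by exact_mod_cast hN.ne'
  have h3 : (e : ℚ) = d := by
    field_simp at h1
    exact h1
  exact_mod_cast h3.symm

lemma sum_recip {N : ℕ} (hN : 0 < N) {S : Finset ℕ} (hS : ∀ d ∈ S, d ∣ N) :
    ∑ n ∈ S.image (fun d => N / d), (1 / n : ℚ) = ((∑ d ∈ S, d : ℕ) : ℚ) / N := by
  rw [sum_image (div_injOn hN hS)]
  push_cast
  rw [sum_div]
  exact sum_congr rfl fun d hd => recip_div hN (hS d hd)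

theorem assemble {R G k j b a : ℕ} (hR : 1 ≤ R) (hRj : R ≤ 2 ^ (2 ^ j))
    (hG : b * 2 ^ (2 ^ (j + 1)) ≤ G) (hrep : Rep R G k) (ha : 1 ≤ a) (hab : a < b) :
    ∃ T : Finset ℕ, T.card ≤ j + 1 + 2 * k ∧ (∀ n ∈ T, 2 ≤ n) ∧
      ∑ n ∈ T, (1 / n : ℚ) = a / b := by
  have hb0 : 0 < b := by omega
  have hbq : (0 : ℚ) < b := by exact_mod_cast hb0
  have haq : (0 : ℚ) < a := by exact_mod_cast ha
  have hx0 : (0 : ℚ) < a / b := by positivity
  have hx1 : (a : ℚ) / b < 1 := by rw [div_lt_one hbq]; exact_mod_cast hab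
  obtain ⟨M, h1, h2, h3, h4, h5, h6⟩ := greedy hx0 hx1 j
  set z : ℚ := (a : ℚ) / b - ∑ m ∈ M, (1 / m : ℚ) with hz
  have hz1 : z < 1 := by
    have : 0 ≤ ∑ m ∈ M, (1 / m : ℚ) := sum_nonneg fun m _ => by positivity
    linarith
  set m0 := ∏ m ∈ M, m with hm0
  have hm0pos : 0 < m0 := prod_pos fun m hm => by have := h2 m hm; omega
  set b' := b * m0 with hb'
  have hb'pos : 0 < b' := Nat.mul_pos hb0 hm0pos
  have hb'G : b' ≤ G := (Nat.mul_le_mul_left b h3).trans hG
  have hGpos : 0 < G := lt_of_lt_of_le hb'pos hb'G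
  -- z is a fraction with denominator b'
  obtain ⟨a', ha'⟩ : ∃ a' : ℕ, (a' : ℚ) = z * b' := by
    have hint : ∃ c : ℤ, (c : ℚ) = z * b' := by
      have e1 : ∀ m ∈ M, ((m0 / m : ℕ) : ℚ) = m0 * (1 / m) := by
        intro m hm
        have hdvd : m ∣ m0 := dvd_prod_of_mem _ hm
        have hmpos : (m : ℚ) ≠ 0 := by
          have := h2 m hm
          exact_mod_cast (by omega : m ≠ 0)
        rw [Nat.cast_div hdvd hmpos]
        ring
      obtain ⟨Sg, hSg⟩ : ∃ Sg : ℕ, (Sg : ℚ) = m0 * ∑ m ∈ M, (1 / m : ℚ) := by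
        refine ⟨∑ m ∈ M, m0 / m, ?_⟩
        rw [Nat.cast_sum, sum_congr rfl e1, mul_sum]
      refine ⟨(a : ℤ) * m0 - b * Sg, ?_⟩
      push_cast
      rw [hSg, hz, hb']
      push_cast
      field_simp
    obtain ⟨c, hc⟩ := hint
    have hc0 : 0 ≤ c := by
      have : (0 : ℚ) ≤ c := by rw [hc]; positivity
      exact_mod_cast this
    refine ⟨c.toNat, ?_⟩
    rw [← hc]
    exact_mod_cast Int.toNat_of_nonneg hc0
  set N := R * G with hN
  have hNpos : 0 < N := Nat.mul_pos hR hGpos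
  have hNq : (0 : ℚ) < N := by exact_mod_cast hNpos
  have hb'q : (0 : ℚ) < b' := by exact_mod_cast hb'pos
  set s := a' * N / b' with hs
  set r := a' * N % b' with hr
  have hsr : b' * s + r = a' * N := Nat.div_add_mod _ _
  have hsrq : (b' : ℚ) * s + r = z * b' * N := by
    rw [← ha']; exact_mod_cast hsr
  have hrb : r < b' := Nat.mod_lt _ hb'pos
  have hszN : (s : ℚ) ≤ z * N := by
    have hr0 : (0 : ℚ) ≤ r := by positivity
    have : (b' : ℚ) * s ≤ b' * (z * N) := by linarith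
    exact le_of_mul_le_mul_left this hb'q
  have hsG : s < G := by
    have hzR : z * R < 1 := by
      have : (R : ℚ) ≤ 2 ^ (2 ^ j) := by exact_mod_cast hRj
      calc z * R ≤ z * 2 ^ (2 ^ j) := by gcongr
        _ < 1 := h5
    have : (s : ℚ) < G := by
      have hGq : (0 : ℚ) < G := by exact_mod_cast hGpos
      calc (s : ℚ) ≤ z * N := hszN
        _ = (z * R) * G := by rw [hN]; push_cast; ring
        _ < 1 * G := by gcongr
        _ = G := one_mul _
    exact_mod_cast this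
  obtain ⟨S, hS1, hS2, hS3⟩ := hrep s hsG
  obtain ⟨S', hS'1, hS'2, hS'3⟩ := hrep r (lt_of_lt_of_le hrb hb'G)
  have hb'N : 0 < b' * N := Nat.mul_pos hb'pos hNpos
  have hS'N : ∀ e ∈ S', e ∣ b' * N := fun e he => (hS'2 e he).trans ⟨b', by ring⟩
  set T1 := S.image (fun d => N / d) with hT1
  set T2 := S'.image (fun e => b' * N / e) with hT2
  -- all elements of T1, T2 are at least 1 / z
  have hT1z : ∀ n ∈ T1, 1 ≤ (n : ℚ) * z := by
    intro n hn
    rw [hT1, mem_image] at hn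
    obtain ⟨d, hd, rfl⟩ := hn
    have hd0 : 0 < d := Nat.pos_of_dvd_of_pos (hS2 d hd) hNpos
    have hds : d ≤ s := by rw [← hS3]; exact single_le_sum (f := fun x => x) (fun _ _ => Nat.zero_le _) hd
    have h7 : (d : ℚ) ≤ z * N := le_trans (by exact_mod_cast hds) hszN
    have hdq : (0 : ℚ) < d := by exact_mod_cast hd0
    rw [Nat.cast_div (hS2 d hd) hdq.ne']
    rw [div_mul_eq_mul_div, le_div_iff₀ hdq]
    linarith
  have hT2z : ∀ n ∈ T2, 1 ≤ (n : ℚ) * z := by
    intro n hn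
    rw [hT2, mem_image] at hn
    obtain ⟨e, he, rfl⟩ := hn
    have he0 : 0 < e := Nat.pos_of_dvd_of_pos (hS'N e he) hb'N
    have her : e ≤ r := by rw [← hS'3]; exact single_le_sum (f := fun x => x) (fun _ _ => Nat.zero_le _) he
    have h7 : (e : ℚ) ≤ z * (b' * N) := by
      have h8 : (e : ℚ) ≤ r := by exact_mod_cast her
      have h9 : (0 : ℚ) ≤ b' * s := by positivity
      linarith
    have heq : (0 : ℚ) < e := by exact_mod_cast he0
    rw [Nat.cast_div (hS'N e he) heq.ne']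
    rw [div_mul_eq_mul_div, le_div_iff₀ heq]
    push_cast
    linarith
  have hge2 : ∀ n : ℕ, 1 ≤ (n : ℚ) * z → 2 ≤ n := by
    intro n hn
    by_contra hcon
    push Not at hcon
    have h7 : (n : ℚ) ≤ 1 := by exact_mod_cast (by omega : n ≤ 1)
    have h8 : (n : ℚ) * z ≤ 1 * z := by gcongr
    linarith
  have hd12 : Disjoint T1 T2 := by
    rw [disjoint_left]
    intro n hn hn'
    rw [hT1, mem_image] at hn
    rw [hT2, mem_image] at hn'
    obtain ⟨d, hd, rfl⟩ := hn
    obtain ⟨e, he, hed⟩ := hn'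
    have hd0 : 0 < d := Nat.pos_of_dvd_of_pos (hS2 d hd) hNpos
    have he0 : 0 < e := Nat.pos_of_dvd_of_pos (hS'N e he) hb'N
    have her : e ≤ r := by rw [← hS'3]; exact single_le_sum (f := fun x => x) (fun _ _ => Nat.zero_le _) he
    have e1 := recip_div hNpos (hS2 d hd)
    have e2 := recip_div hb'N (hS'N e he)
    rw [hed, e1] at e2
    have e3 : (d : ℚ) * b' = e := by
      rw [div_eq_div_iff hNq.ne' (by exact_mod_cast hb'N.ne')] at e2
      push_cast at e2
      have : (d * b' : ℚ) * N = e * N := by linarith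
      exact mul_right_cancel₀ hNq.ne' this
    have e4 : d * b' = e := by exact_mod_cast e3
    have e5 : b' ≤ d * b' := Nat.le_mul_of_pos_left _ hd0
    omega
  have hdM : Disjoint M (T1 ∪ T2) := by
    rw [disjoint_left]
    intro m hm hm'
    have h7 := h6 m hm
    rcases mem_union.1 hm' with h8 | h8
    · have := hT1z m h8; linarith
    · have := hT2z m h8; linarith
  refine ⟨M ∪ (T1 ∪ T2), ?_, ?_, ?_⟩
  · have c1 := card_union_le M (T1 ∪ T2)
    have c2 := card_union_le T1 T2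
    have c3 : T1.card ≤ S.card := card_image_le
    have c4 : T2.card ≤ S'.card := card_image_le
    omega
  · intro n hn
    rcases mem_union.1 hn with h7 | h7
    · exact h2 n h7
    · rcases mem_union.1 h7 with h8 | h8
      · exact hge2 n (hT1z n h8)
      · exact hge2 n (hT2z n h8)
  · rw [sum_union hdM, sum_union hd12, hT1, hT2, sum_recip hNpos hS2, sum_recip hb'N hS'N, hS3,
      hS'3]
    have e1 : (s : ℚ) / N + r / ((b' * N : ℕ) : ℚ) = z := by
      push_cast
      field_simp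
      linarith
    rw [e1, hz]; ring

end Vale.Agent.Egypt
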