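import Vale.Agent.Egypt.Step

namespace Vale.Agent.Egypt

open Finset

lemma exists_P {L : ℕ} (hL : 60 ≤ L) : ∃ P : Fin 4 → Finset ℕ,
    (∀ i, ∀ p ∈ P i, p.Prime) ∧ (∀ i, ∀ p ∈ P i, p ≤ 2 ^ (3 * L)) ∧
    (∀ i, (P i).card = 2 ^ L) ∧ ∀ i i', i ≠ i' → Disjoint (P i) (P i') := by
  have hmono : StrictMono (Nat.nth Nat.Prime) := Nat.nth_strictMono Nat.infinite_setOfPred_prime
  have hcount : 4 * 2 ^ L ≤ ((range (2 ^ (3 * L) + 1)).filter Nat.Prime).card := by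
    have h1 := prime_supply (n := 2 ^ (3 * L - 1)) (e := 3 * L)
      (Nat.one_le_iff_ne_zero.2 (by positivity))
      (le_of_eq (by rw [← pow_succ']; congr 1; omega))
    have h2 : 2 * 2 ^ (3 * L - 1) = 2 ^ (3 * L) := by rw [← pow_succ']; congr 1; omega
    rw [h2] at h1
    by_contra hcon
    push Not at hcon
    have h3 : 2 ^ (3 * L) ≤ 3 * L * (4 * 2 ^ L) := h1.trans (Nat.mul_le_mul_left _ (by omega))
    have h4 : 2 ^ (3 * L) = 2 ^ (2 * L) * 2 ^ L := by rw [← pow_add]; congr 1; ring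
    have h5 : 3 * L * (4 * 2 ^ L) = (12 * L) * 2 ^ L := by ring
    rw [h4, h5] at h3
    have h6 : 2 ^ (2 * L) ≤ 12 * L := Nat.le_of_mul_le_mul_right h3 (by positivity)
    have h7 : L < 2 ^ L := Nat.lt_two_pow_self
    have h8 : 12 ≤ 2 ^ L := by
      calc 12 ≤ 2 ^ 60 := by norm_num
        _ ≤ 2 ^ L := Nat.pow_le_pow_right (by norm_num) hL
    have h9 : 2 ^ (2 * L) = 2 ^ L * 2 ^ L := by rw [← pow_add]; congr 1; ring
    rw [h9] at h6
    nlinarith
  refine ⟨fun i => (Finset.Ico ((i : ℕ) * 2 ^ L) (((i : ℕ) + 1) * 2 ^ L)).image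
    (Nat.nth Nat.Prime), ?_, ?_, ?_, ?_⟩
  · intro i p hp
    rw [mem_image] at hp
    obtain ⟨k, -, rfl⟩ := hp
    exact Nat.prime_nth_prime k
  · intro i p hp
    rw [mem_image] at hp
    obtain ⟨k, hk, rfl⟩ := hp
    rw [mem_Ico] at hk
    have hi : (i : ℕ) + 1 ≤ 4 := by omega
    have h1 : k < 4 * 2 ^ L := lt_of_lt_of_le hk.2 (Nat.mul_le_mul_right _ hi)
    have h2 : k < Nat.count Nat.Prime (2 ^ (3 * L) + 1) := by
      refine lt_of_lt_of_le h1 (hcount.trans (le_of_eq ?_))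
      rw [Nat.count_eq_card_filter_range]
    have h3 := Nat.nth_lt_of_lt_count h2
    omega
  · intro i
    rw [card_image_of_injective _ hmono.injective, Nat.card_Ico, ← Nat.sub_mul]
    simp
  · intro i i' hne
    rw [disjoint_left]
    intro p hp hp'
    rw [mem_image] at hp hp'
    obtain ⟨k, hk, rfl⟩ := hp
    obtain ⟨k', hk', hkk⟩ := hp'
    have := hmono.injective hkk
    subst this
    rw [mem_Ico] at hk hk'
    apply hne
    apply Fin.ext
    by_contra h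
    rcases Nat.lt_or_gt_of_ne h with h1 | h1
    · have : ((i : ℕ) + 1) * 2 ^ L ≤ (i' : ℕ) * 2 ^ L := Nat.mul_le_mul_right _ h1
      omega
    · have : ((i' : ℕ) + 1) * 2 ^ L ≤ (i : ℕ) * 2 ^ L := Nat.mul_le_mul_right _ h1
      omega

/-- number of steps at level `j` -/
def sj (L j : ℕ) : ℕ := 6 * L / (L - j) + 1

lemma sj_spec {L j : ℕ} (hj : j < L) : 6 * L ≤ (L - j) * sj L j := by
  unfold sj
  have h1 : 0 < L - j := by omega
  have := Nat.lt_mul_div_succ (6 * L) h1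
  omega

theorem chain {L : ℕ} (hL : 60 ≤ L) : ∃ R G : ℕ, 1 ≤ R ∧ R ≤ 2 ^ (12 * L * 2 ^ L) ∧
    2 ^ (2 ^ L * (1 + 48 * L)) ≤ G ∧
    Rep R G (5 + 198 * L + 2 * ∑ j ∈ range L, sj L j) := by
  obtain ⟨P, hPp, hPy, hPc, hPd⟩ := exists_P hL
  set R := prd (univ.biUnion P) with hR
  have hRp : ∀ p ∈ univ.biUnion P, p.Prime := by
    intro p hp
    rw [mem_biUnion] at hp
    obtain ⟨i, -, hi⟩ := hp
    exact hPp i p hi
  have hR1 : 1 ≤ R := prd_pos hRp
  have hRle : R ≤ 2 ^ (12 * L * 2 ^ L) := by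
    have hc : (univ.biUnion P).card ≤ 4 * 2 ^ L := by
      refine card_biUnion_le.trans ?_
      rw [sum_congr rfl fun i _ => hPc i, sum_const]
      simp
    calc R ≤ (2 ^ (3 * L)) ^ (univ.biUnion P).card := by
          refine prd_le (fun p hp => ?_) rfl
          rw [mem_biUnion] at hp
          obtain ⟨i, -, hi⟩ := hp
          exact hPy i p hi
      _ ≤ (2 ^ (3 * L)) ^ (4 * 2 ^ L) := Nat.pow_le_pow_right (by positivity) hc
      _ = 2 ^ (12 * L * 2 ^ L) := by rw [← pow_mul]; congr 1; ring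
  -- levels
  have level : ∀ j < L, ∃ Q : ℕ, Q.Prime ∧ ¬ Q ∣ R ∧ 2 ^ ((L - j) * 2 ^ j) < Q ∧
      Cover R Q (2 ^ (1 + 6 * L * 2 ^ j)) := by
    intro j hj
    obtain ⟨Q, hQ, hQP, hQbig, hQ3, hcard⟩ := good_prime hL hj P hPp hPy hPc
    refine ⟨Q, hQ, ?_, hQbig, cover_level P hPp hPy hPd hQ hQP hQ3 hcard⟩
    refine not_dvd_prd hQ hRp fun h => ?_
    rw [mem_biUnion] at h
    obtain ⟨i, -, hi⟩ := h
    exact hQP i hi
  have main : ∀ j ≤ L, ∃ G : ℕ, 2 ^ (1 + 6 * L * 2 ^ j) ≤ G ∧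
      Rep R G (1 + 6 * L + 2 * ∑ i ∈ range j, sj L i) := by
    intro j
    induction j with
    | zero =>
      intro _
      refine ⟨2 ^ (1 + 6 * L), by simp, ?_⟩
      simpa using rep_pow_two R (1 + 6 * L)
    | succ j ih =>
      intro hj
      obtain ⟨G, hG, hrep⟩ := ih (by omega)
      obtain ⟨Q, hQ, hQR, hQbig, hcov⟩ := level j (by omega)
      refine ⟨G * Q ^ (sj L j), ?_, ?_⟩
      · have h1 : (2 ^ ((L - j) * 2 ^ j)) ^ (sj L j) ≤ Q ^ (sj L j) :=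
          Nat.pow_le_pow_left hQbig.le _
        have h2 : 2 ^ (6 * L * 2 ^ j) ≤ (2 ^ ((L - j) * 2 ^ j)) ^ (sj L j) := by
          rw [← pow_mul]
          apply Nat.pow_le_pow_right (by norm_num)
          have := Nat.mul_le_mul_right (2 ^ j) (sj_spec (by omega : j < L))
          calc 6 * L * 2 ^ j ≤ (L - j) * sj L j * 2 ^ j := this
            _ = (L - j) * 2 ^ j * sj L j := by ring
        calc 2 ^ (1 + 6 * L * 2 ^ (j + 1)) = 2 ^ (1 + 6 * L * 2 ^ j) * 2 ^ (6 * L * 2 ^ j) := by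
              rw [← pow_add]; congr 1; ring
          _ ≤ G * Q ^ (sj L j) := Nat.mul_le_mul hG (h2.trans h1)
      · have := rep_iter hrep hQ hQR hcov hG (sj L j)
        rw [sum_range_succ]
        convert this using 1
        ring
  obtain ⟨G, hG, hrep⟩ := main L le_rfl
  obtain ⟨Q, hQ, hQR, hQbig, hcov⟩ := level (L - 1) (by omega)
  have hB : 2 ^ (1 + 6 * L * 2 ^ (L - 1)) ≤ G := by
    refine le_trans (Nat.pow_le_pow_right (by norm_num) ?_) hG
    have : 2 ^ (L - 1) ≤ 2 ^ L := Nat.pow_le_pow_right (by norm_num) (by omega)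
    have := Nat.mul_le_mul_left (6 * L) this
    omega
  refine ⟨R, G * Q ^ (2 + 96 * L), hR1, hRle, ?_, ?_⟩
  · have h1 : 2 ^ (2 ^ (L - 1)) ≤ Q := by
      have : (L - (L - 1)) * 2 ^ (L - 1) = 2 ^ (L - 1) := by
        rw [show L - (L - 1) = 1 by omega, one_mul]
      rw [this] at hQbig
      exact hQbig.le
    have h2 : 2 ^ (2 ^ L * (1 + 48 * L)) = (2 ^ (2 ^ (L - 1))) ^ (2 + 96 * L) := by
      rw [← pow_mul]
      congr 1
      obtain ⟨l, rfl⟩ : ∃ l, L = l + 1 := ⟨L - 1, by omega⟩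
      rw [Nat.add_sub_cancel, pow_succ]; ring
    rw [h2]
    calc (2 ^ (2 ^ (L - 1))) ^ (2 + 96 * L) ≤ Q ^ (2 + 96 * L) := Nat.pow_le_pow_left h1 _
      _ = 1 * Q ^ (2 + 96 * L) := by ring
      _ ≤ G * Q ^ (2 + 96 * L) := by
          apply Nat.mul_le_mul_right
          exact le_trans Nat.one_le_two_pow hB
  · have := rep_iter hrep hQ hQR hcov hB (2 + 96 * L)
    convert this using 1
    ring

end Vale.Agent.Egypt
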