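import Mathlib

/-!
# P012: repeated unit fractions can be made distinct without increasing their number
-/

namespace Vale.Agent.Egypt

open Finset

/-- the sum of the reciprocals -/
def rsum (s : Multiset ℕ) : ℚ := (s.map (fun m : ℕ => 1 / (m : ℚ))).sum

lemma rsum_zero : rsum 0 = 0 := rfl

lemma rsum_cons (m : ℕ) (s : Multiset ℕ) : rsum (m ::ₘ s) = 1 / (m : ℚ) + rsum s := by
  unfold rsum
  rw [Multiset.map_cons, Multiset.sum_cons]

lemma rsum_nonneg (s : Multiset ℕ) : 0 ≤ rsum s := by
  induction s using Multiset.induction with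
  | empty => rw [rsum_zero]
  | cons m s ih =>
    rw [rsum_cons]
    positivity

/-- if all terms are below `y` then the sum is at most `card * y` -/
lemma rsum_lt {s : Multiset ℕ} {y : ℚ} (h : ∀ m ∈ s, 1 / (m : ℚ) < y) :
    rsum s ≤ s.card * y := by
  induction s using Multiset.induction with
  | empty => simp [rsum_zero]
  | cons m s ih =>
    rw [rsum_cons, Multiset.card_cons]
    have h1 := h m (Multiset.mem_cons_self m s)
    have h2 := ih fun m' hm' => h m' (Multiset.mem_cons_of_mem hm')
    push_cast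
    linarith

lemma finite_rep (k : ℕ) : ∀ x : ℚ,
    {s : Multiset ℕ | s.card = k ∧ (∀ m ∈ s, 1 ≤ m) ∧ rsum s = x}.Finite := by
  induction k with
  | zero =>
    intro x
    refine (Set.finite_singleton (0 : Multiset ℕ)).subset ?_
    rintro s ⟨hs, -, -⟩
    exact Multiset.card_eq_zero.1 hs
  | succ k ih =>
    intro x
    rcases le_or_gt x 0 with hx | hx
    · refine (Set.finite_empty).subset ?_
      rintro s ⟨hs, hpos, hsum⟩
      obtain ⟨m, hm⟩ := Multiset.card_pos_iff_exists_mem.1 (by rw [hs]; omega)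
      obtain ⟨t, rfl⟩ := Multiset.exists_cons_of_mem hm
      rw [rsum_cons] at hsum
      have h1 := rsum_nonneg t
      have h2 : (0 : ℚ) < 1 / (m : ℚ) := by
        have : 1 ≤ m := hpos m hm
        positivity
      exfalso
      linarith
    · obtain ⟨M, hM⟩ := exists_nat_gt ((k + 1 : ℚ) / x)
      have hfin : (⋃ m ∈ Finset.range M, (fun s => m ::ₘ s) ''
          {s : Multiset ℕ | s.card = k ∧ (∀ m ∈ s, 1 ≤ m) ∧ rsum s = x - 1 / (m : ℚ)}).Finite := by
        refine Set.Finite.biUnion (Finset.finite_toSet _) fun m _ => ?_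
        exact (ih (x - 1 / (m : ℚ))).image _
      refine hfin.subset ?_
      rintro s ⟨hs, hpos, hsum⟩
      -- some term is at least the average
      have hex : ∃ m ∈ s, m < M := by
        by_contra hcon
        push Not at hcon
        have hMpos : (0 : ℚ) < M := lt_trans (by positivity) hM
        have h1 : ∀ m ∈ s, 1 / (m : ℚ) ≤ 1 / (M : ℚ) := by
          intro m hm
          have h2 : (M : ℚ) ≤ m := by exact_mod_cast hcon m hm
          exact one_div_le_one_div_of_le hMpos h2
        have h3 : 1 / (M : ℚ) < x / (k + 1) := by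
          rw [div_lt_div_iff₀ hMpos (by positivity)]
          rw [div_lt_iff₀ hx] at hM
          linarith
        have hex : ∃ z : ℚ, 1 / (M : ℚ) < z ∧ z < x / (k + 1) := exists_between h3
        obtain ⟨z, hz1, hz2⟩ := hex
        have h4 := rsum_lt (s := s) (y := z) fun m hm => (h1 m hm).trans_lt hz1
        rw [hsum, hs] at h4
        rw [lt_div_iff₀ (by positivity)] at hz2
        push_cast at h4
        linarith
      obtain ⟨m, hm, hmM⟩ := hex
      obtain ⟨t, rfl⟩ := Multiset.exists_cons_of_mem hm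
      simp only [Set.mem_iUnion, Set.mem_image]
      refine ⟨m, Finset.mem_range.2 hmM, t, ⟨?_, ?_, ?_⟩, rfl⟩
      · rw [Multiset.card_cons] at hs
        omega
      · exact fun m' hm' => hpos m' (Multiset.mem_cons_of_mem hm')
      · rw [rsum_cons] at hsum
        linarith

/-- **Removal of repetitions.** -/
theorem dedup {x : ℚ} (hx1 : x < 1) (s : Multiset ℕ) (hpos : ∀ m ∈ s, 1 ≤ m)
    (hsum : (s.map (fun m : ℕ => 1 / (m : ℚ))).sum = x) :
    ∃ T : Finset ℕ, T.card ≤ s.card ∧ (∀ n ∈ T, 2 ≤ n) ∧ ∑ n ∈ T, (1 / n : ℚ) = x := by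
  classical
  -- minimal number of terms
  have hex : ∃ k, ∃ s : Multiset ℕ, s.card = k ∧ (∀ m ∈ s, 1 ≤ m) ∧ rsum s = x :=
    ⟨s.card, s, rfl, hpos, hsum⟩
  set k := Nat.find hex with hk
  have hkle : k ≤ s.card := Nat.find_le ⟨s, rfl, hpos, hsum⟩
  have hkspec := Nat.find_spec hex
  have hkmin : ∀ k' < k, ¬ ∃ s : Multiset ℕ, s.card = k' ∧ (∀ m ∈ s, 1 ≤ m) ∧ rsum s = x :=
    fun k' hk' => Nat.find_min hex hk'
  -- maximal product
  obtain ⟨t, ht, hmax⟩ := Set.exists_max_image _ (fun s : Multiset ℕ => s.prod)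
    (finite_rep k x) hkspec
  obtain ⟨ht1, ht2, ht3⟩ := ht
  have htwo : ∀ m ∈ t, 2 ≤ m := by
    intro m hm
    have h1 := ht2 m hm
    by_contra hcon
    have h2 : m = 1 := by omega
    subst h2
    obtain ⟨u, rfl⟩ := Multiset.exists_cons_of_mem hm
    rw [rsum_cons] at ht3
    have := rsum_nonneg u
    norm_num at ht3
    linarith
  have hnodup : t.Nodup := by
    rw [Multiset.nodup_iff_le]
    intro m hle
    obtain ⟨u, rfl⟩ := Multiset.le_iff_exists_add.1 hle
    have hcons : m ::ₘ m ::ₘ (0 : Multiset ℕ) + u = m ::ₘ m ::ₘ u := by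
      simp
    have hmem : m ∈ m ::ₘ m ::ₘ (0 : Multiset ℕ) + u := by simp
    have hm2 := htwo m hmem
    have hmu : ∀ m' ∈ u, 1 ≤ m' := fun m' hm' => ht2 m' (Multiset.mem_add.2 (Or.inr hm'))
    rw [hcons] at ht1 ht3
    rw [Multiset.card_cons, Multiset.card_cons] at ht1
    rw [rsum_cons, rsum_cons] at ht3
    have hmq : (0 : ℚ) < m := by
      have : 0 < m := by omega
      exact_mod_cast this
    rcases Nat.even_or_odd m with ⟨a, ha⟩ | ⟨a, ha⟩
    · -- even: fewer terms
      have ha0 : 0 < a := by omega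
      have haq : (0 : ℚ) < a := by exact_mod_cast ha0
      refine hkmin (u.card + 1) (by omega) ⟨a ::ₘ u, by rw [Multiset.card_cons], ?_, ?_⟩
      · intro m' hm'
        rcases Multiset.mem_cons.1 hm' with rfl | h
        · omega
        · exact hmu m' h
      · rw [rsum_cons, ← ht3, ha]
        push_cast
        field_simp
        ring
    · -- odd: larger product
      have ha0 : 1 ≤ a := by omega
      have haq : (0 : ℚ) < a := by exact_mod_cast ha0
      have hmem2 : (a + 1) ::ₘ (m * (a + 1)) ::ₘ u ∈
          {s : Multiset ℕ | s.card = k ∧ (∀ m ∈ s, 1 ≤ m) ∧ rsum s = x} := by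
        refine ⟨by rw [Multiset.card_cons, Multiset.card_cons]; omega, ?_, ?_⟩
        · intro m' hm'
          rcases Multiset.mem_cons.1 hm' with rfl | h
          · omega
          · rcases Multiset.mem_cons.1 h with rfl | h
            · exact Nat.one_le_iff_ne_zero.2 (Nat.mul_ne_zero (by omega) (by omega))
            · exact hmu m' h
        · rw [rsum_cons, rsum_cons, ← ht3, ha]
          push_cast
          field_simp
          ring
      have h5 := hmax _ hmem2
      simp only [hcons, Multiset.prod_cons] at h5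
      have hup : 0 < u.prod := by
        apply Nat.pos_of_ne_zero
        intro h0
        rw [Multiset.prod_eq_zero_iff] at h0
        have := hmu 0 h0
        omega
      have h6 : m * (m * u.prod) < (a + 1) * (m * (a + 1) * u.prod) := by
        have h7 : m < (a + 1) * (a + 1) := by nlinarith
        have h8 : 0 < m * u.prod := Nat.mul_pos (by omega) hup
        calc m * (m * u.prod) < ((a + 1) * (a + 1)) * (m * u.prod) :=
              Nat.mul_lt_mul_of_pos_right h7 h8
          _ = (a + 1) * (m * (a + 1) * u.prod) := by ring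
      omega
  refine ⟨⟨t, hnodup⟩, ?_, ?_, ?_⟩
  · rw [Finset.card_mk, ht1]
    exact hkle
  · intro n hn
    exact htwo n (by simpa using hn)
  · rw [← ht3]
    rfl

end Vale.Agent.Egypt
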