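import Mathlib

namespace Vale.Agent.Egypt

/-- Every `n < G` is a sum of at most `k` distinct divisors of `R * G`. -/
def Rep (R G k : ℕ) : Prop :=
  ∀ n < G, ∃ S : Finset ℕ, S.card ≤ k ∧ (∀ s ∈ S, s ∣ R * G) ∧ ∑ s ∈ S, s = n

end Vale.Agent.Egypt
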