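import Mathlib

namespace Vale.Agent.Egypt

/-- `T` is the set of denominators of an expansion of `a / b` into distinct unit fractions,
all denominators being at least two. -/
def IsExpansion (a b : ℕ) (T : Finset ℕ) : Prop :=
  (∀ n ∈ T, 2 ≤ n) ∧ ∑ n ∈ T, (1 / n : ℚ) = a / b

/-- `N(a,b)`: the least `k ≥ 1` such that `a/b = 1/n_1 + ... + 1/n_k` with
`2 ≤ n_1 < ... < n_k`. -/
noncomputable def Nab (a b : ℕ) : ℕ :=
  sInf {k : ℕ | 1 ≤ k ∧ ∃ T : Finset ℕ, T.card = k ∧ IsExpansion a b T}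

/-- `N(b) = max_{1 ≤ a < b} N(a,b)`. -/
noncomputable def Nmax (b : ℕ) : ℕ := (Finset.Ico 1 b).sup fun a => Nab a b

end Vale.Agent.Egypt
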