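import Vale.Agent.Egypt.Main
import Vale.Agent.Egypt.Statement

namespace Vale.Agent.Egypt

open Finset Filter

lemma L_bound {b : ℕ} (hb : 60 ≤ Real.log (Real.log b)) :
    ∃ L : ℕ, 60 ≤ L ∧ b ≤ 2 ^ (2 ^ L) ∧ (L : ℝ) ≤ 2 * Real.log (Real.log b) := by
  set x := Real.log (Real.log b) with hx
  have hlogb : 60 < Real.log b := by
    by_contra hcon
    push Not at hcon
    have h1 : x ≤ Real.log 60 := by
      rcases le_or_gt (Real.log b) 0 with h0 | h0
      · have hb0 : 0 ≤ Real.log (b : ℝ) := Real.log_natCast_nonneg b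
        have : Real.log (b : ℝ) = 0 := le_antisymm h0 hb0
        rw [hx, this, Real.log_zero]
        exact Real.log_nonneg (by norm_num)
      · exact Real.log_le_log h0 hcon
    have h2 : Real.log 60 ≤ 60 - 1 := Real.log_le_sub_one_of_pos (by norm_num)
    linarith
  have hbpos : (0 : ℝ) < b := by
    by_contra hcon
    push Not at hcon
    have : (b : ℝ) = 0 := le_antisymm hcon (Nat.cast_nonneg b)
    rw [this, Real.log_zero] at hlogb
    linarith
  have hb1 : 1 < b := by
    by_contra hcon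
    push Not at hcon
    have h1 : (b : ℝ) ≤ 1 := by exact_mod_cast hcon
    have : Real.log b ≤ 0 := Real.log_nonpos hbpos.le h1
    linarith
  have hl2 : (0.69 : ℝ) < Real.log 2 := by
    have := Real.log_two_gt_d9; linarith
  have hl2' : Real.log 2 < 1 := by
    have := Real.log_two_lt_d9; linarith
  set c := Nat.clog 2 b with hc
  have hbc : b ≤ 2 ^ c := Nat.le_pow_clog (by norm_num) b
  have hc1 : 2 ^ (c.pred) < b := Nat.pow_pred_clog_lt_self (by norm_num) hb1
  have hcpos : 0 < c := Nat.clog_pos (by norm_num) hb1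
  have hcr : (c : ℝ) ≤ 2 * Real.log b := by
    obtain ⟨c', hc'⟩ : ∃ c', c = c' + 1 := ⟨c - 1, by omega⟩
    rw [hc', Nat.pred_succ] at hc1
    have h1 : (c' : ℝ) * Real.log 2 ≤ Real.log b := by
      rw [← Real.log_pow]
      apply Real.log_le_log (by positivity)
      exact_mod_cast hc1.le
    have h2 : (c : ℝ) = c' + 1 := by exact_mod_cast hc'
    rw [h2]
    nlinarith
  have hc2 : 1 < c := by
    by_contra hcon
    push Not at hcon
    have h1 : b ≤ 2 ^ 1 := hbc.trans (Nat.pow_le_pow_right (by norm_num) hcon)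
    have h2 : (b : ℝ) ≤ 2 := by exact_mod_cast h1
    have : Real.log b ≤ Real.log 2 := Real.log_le_log hbpos h2
    linarith
  set l := Nat.clog 2 c with hl
  have hcl : c ≤ 2 ^ l := Nat.le_pow_clog (by norm_num) c
  have hl1 : 2 ^ (l.pred) < c := Nat.pow_pred_clog_lt_self (by norm_num) hc2
  have hlpos : 0 < l := Nat.clog_pos (by norm_num) hc2
  have hlr : (l : ℝ) ≤ 2 * x := by
    obtain ⟨l', hl'⟩ : ∃ l', l = l' + 1 := ⟨l - 1, by omega⟩
    rw [hl', Nat.pred_succ] at hl1
    have hcR : (0 : ℝ) < c := by exact_mod_cast hcpos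
    have h1 : (l' : ℝ) * Real.log 2 ≤ Real.log c := by
      rw [← Real.log_pow]
      apply Real.log_le_log (by positivity)
      exact_mod_cast hl1.le
    have h3 : Real.log c ≤ Real.log 2 + x := by
      rw [hx, ← Real.log_mul (by norm_num) (by linarith)]
      exact Real.log_le_log hcR hcr
    have h2 : (l : ℝ) = l' + 1 := by exact_mod_cast hl'
    rw [h2]
    nlinarith
  refine ⟨max 60 l, le_max_left _ _, ?_, ?_⟩
  · refine hbc.trans (Nat.pow_le_pow_right (by norm_num) ?_)
    exact hcl.trans (Nat.pow_le_pow_right (by norm_num) (le_max_right _ _))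
  · push_cast
    apply max_le _ hlr
    linarith

lemma card_bound {a b : ℕ} (hb : 60 ≤ Real.log (Real.log b)) (ha : 1 ≤ a) (hab : a < b) :
    ∃ T : Finset ℕ, IsExpansion a b T ∧
      (T.card : ℝ) ≤ 1844 * Real.log (Real.log b) * Real.log (Real.log (Real.log b)) := by
  obtain ⟨L, hL, hbL, hLx⟩ := L_bound hb
  obtain ⟨T, h1, h2, h3⟩ := expansion hL ha hab hbL
  refine ⟨T, ⟨h2, h3⟩, h1.trans ?_⟩
  set x := Real.log (Real.log b) with hx
  have hLr : (60 : ℝ) ≤ L := by exact_mod_cast hL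
  have hlogL : Real.log L ≤ 2 * Real.log x := by
    have h4 : Real.log L ≤ Real.log (2 * x) := Real.log_le_log (by linarith) hLx
    rw [Real.log_mul (by norm_num) (by linarith)] at h4
    have h5 : Real.log 2 ≤ Real.log x := Real.log_le_log (by norm_num) (by linarith)
    linarith
  have h6 : 0 ≤ Real.log L := Real.log_nonneg (by linarith)
  calc 461 * (L : ℝ) * Real.log L ≤ 461 * (2 * x) * (2 * Real.log x) := by gcongr
    _ = 1844 * x * Real.log x := by ring

theorem main : ∃ C : ℝ, ∃ b₀ : ℕ, ∀ b ≥ b₀,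
    (Nmax b : ℝ) ≤ C * Real.log (Real.log b) * Real.log (Real.log (Real.log b)) ∧
    ∀ a, 1 ≤ a → a < b → 1 ≤ Nab a b ∧
      ∃ T : Finset ℕ, T.card = Nab a b ∧ IsExpansion a b T := by
  have htend : Tendsto (fun b : ℕ => Real.log (Real.log (b : ℝ))) atTop atTop :=
    Real.tendsto_log_atTop.comp (Real.tendsto_log_atTop.comp tendsto_natCast_atTop_atTop)
  obtain ⟨b₀, hb₀⟩ := eventually_atTop.1 (htend.eventually_ge_atTop 60)
  refine ⟨1844, b₀, fun b hb => ?_⟩
  have hb60 := hb₀ b hb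
  have hex : ∀ a, 1 ≤ a → a < b → ∃ T : Finset ℕ, 1 ≤ T.card ∧ IsExpansion a b T ∧
      (T.card : ℝ) ≤ 1844 * Real.log (Real.log b) * Real.log (Real.log (Real.log b)) := by
    intro a ha hab
    obtain ⟨T, hT1, hT2⟩ := card_bound hb60 ha hab
    refine ⟨T, ?_, hT1, hT2⟩
    rw [Nat.one_le_iff_ne_zero]
    intro h0
    rw [card_eq_zero] at h0
    have h1 := hT1.2
    rw [h0, sum_empty] at h1
    have haq : (0 : ℚ) < a := by exact_mod_cast ha
    have hbq : (0 : ℚ) < b := by exact_mod_cast (by omega : 0 < b)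
    have : (0 : ℚ) < a / b := by positivity
    linarith
  have hspec : ∀ a, 1 ≤ a → a < b → 1 ≤ Nab a b ∧
      ∃ T : Finset ℕ, T.card = Nab a b ∧ IsExpansion a b T := by
    intro a ha hab
    obtain ⟨T, hT1, hT2, -⟩ := hex a ha hab
    have hne : {k : ℕ | 1 ≤ k ∧ ∃ T : Finset ℕ, T.card = k ∧ IsExpansion a b T}.Nonempty :=
      ⟨T.card, hT1, T, rfl, hT2⟩
    exact Nat.sInf_mem hne
  refine ⟨?_, hspec⟩
  have hnn : 0 ≤ 1844 * Real.log (Real.log b) * Real.log (Real.log (Real.log b)) := by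
    have h1 : 0 ≤ Real.log (Real.log (Real.log b)) := Real.log_nonneg (by linarith)
    have h2 : 0 ≤ Real.log (Real.log b) := by linarith
    positivity
  have hle : Nmax b ≤ ⌊1844 * Real.log (Real.log b) * Real.log (Real.log (Real.log b))⌋₊ := by
    unfold Nmax
    refine Finset.sup_le fun a ha => ?_
    rw [mem_Ico] at ha
    obtain ⟨T, hT1, hT2, hT3⟩ := hex a ha.1 ha.2
    have h1 : Nab a b ≤ T.card := Nat.sInf_le ⟨hT1, T, rfl, hT2⟩
    exact h1.trans (Nat.le_floor hT3)
  exact (Nat.cast_le.2 hle).trans (Nat.floor_le hnn)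

end Vale.Agent.Egypt
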