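import Vale.Agent.Egypt.Primes

namespace Vale.Agent.Egypt

open Finset

/-- Collision form of Cauchy-Schwarz. -/
lemma card_sq_le {α β : Type*} [DecidableEq α] [DecidableEq β] (S : Finset α) (f : α → β) :
    S.card ^ 2 ≤ (S.image f).card *
      (S.card + ((S ×ˢ S).filter (fun p => p.1 ≠ p.2 ∧ f p.1 = f p.2)).card) := by
  have h1 : S.card = ∑ z ∈ S.image f, (S.filter (fun a => f a = z)).card :=
    card_eq_sum_card_image f S
  have h2 : ∑ z ∈ S.image f, (S.filter (fun a => f a = z)).card ^ 2 =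
      ((S ×ˢ S).filter (fun p => f p.1 = f p.2)).card := by
    rw [card_filter, sum_product]
    have e1 : ∀ z ∈ S.image f, (S.filter (fun a => f a = z)).card ^ 2 =
        ∑ a ∈ S.filter (fun a => f a = z), ∑ b ∈ S, (if f a = f b then 1 else 0) := by
      intro z _
      have e2 : ∀ a ∈ S.filter (fun a => f a = z), ∑ b ∈ S, (if f a = f b then 1 else 0) =
          (S.filter (fun a => f a = z)).card := by
        intro a ha
        rw [mem_filter] at ha
        rw [← card_filter]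
        congr 1
        ext b
        simp only [mem_filter, ha.2, eq_comm]
      rw [sum_congr rfl e2, sum_const, smul_eq_mul, sq]
    rw [sum_congr rfl e1]
    exact sum_fiberwise_of_maps_to (fun a ha => mem_image_of_mem f ha)
      (fun a => ∑ b ∈ S, (if f a = f b then 1 else 0))
  have h3 : ((S ×ˢ S).filter (fun p => f p.1 = f p.2)).card =
      S.card + ((S ×ˢ S).filter (fun p => p.1 ≠ p.2 ∧ f p.1 = f p.2)).card := by
    have : (S ×ˢ S).filter (fun p => f p.1 = f p.2) =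
        S.diag ∪ ((S ×ˢ S).filter (fun p => p.1 ≠ p.2 ∧ f p.1 = f p.2)) := by
      ext ⟨a, b⟩
      simp only [mem_filter, mem_product, mem_union, mem_diag]
      constructor
      · rintro ⟨⟨ha, hb⟩, hab⟩
        by_cases h : a = b
        · left; exact ⟨ha, h⟩
        · right; exact ⟨⟨ha, hb⟩, h, hab⟩
      · rintro (⟨ha, h⟩ | ⟨h1, _, h2⟩)
        · subst h; exact ⟨⟨ha, ha⟩, rfl⟩
        · exact ⟨h1, h2⟩
    rw [this, card_union_of_disjoint, diag_card]
    rw [disjoint_left]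
    rintro ⟨a, b⟩ h h'
    rw [mem_diag] at h
    rw [mem_filter] at h'
    exact h'.2.1 h.2
  rw [← h3, ← h2]
  nth_rewrite 1 [h1]
  exact sq_sum_le_card_mul_sum_sq

/-- product of a finite set of naturals -/
def prd (A : Finset ℕ) : ℕ := ∏ p ∈ A, p

lemma prd_inj {A B : Finset ℕ} (hA : ∀ p ∈ A, p.Prime) (hB : ∀ p ∈ B, p.Prime)
    (h : prd A = prd B) : A = B := by
  have h1 : (prd A).primeFactors = A := Nat.primeFactors_prod hA
  have h2 : (prd B).primeFactors = B := Nat.primeFactors_prod hB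
  rw [← h1, ← h2, h]

lemma prd_pos {A : Finset ℕ} (hA : ∀ p ∈ A, p.Prime) : 0 < prd A :=
  prod_pos fun p hp => (hA p hp).pos

lemma prd_le {A : Finset ℕ} {y u : ℕ} (hA : ∀ p ∈ A, p ≤ y) (hu : A.card = u) :
    prd A ≤ y ^ u := by
  rw [← hu, ← prod_const]
  exact prod_le_prod' hA

/-- few large primes divide a small difference -/
lemma few_primes {W : Finset ℕ} {K D r : ℕ} (hD : 0 < D) (hDr : D < K ^ r)
    (hW : ∀ Q ∈ W, Q.Prime ∧ K < Q ∧ Q ∣ D) : W.card ≤ r := by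
  by_contra hcon
  push Not at hcon
  have h1 : ∏ Q ∈ W, Q ∣ D :=
    Finset.prod_primes_dvd D (fun Q hQ => (hW Q hQ).1.prime) (fun Q hQ => (hW Q hQ).2.2)
  have h2 : ∏ Q ∈ W, Q ≤ D := Nat.le_of_dvd hD h1
  have h3 : K ^ W.card ≤ ∏ Q ∈ W, Q := by
    rw [← prod_const]
    exact prod_le_prod' fun Q hQ => (hW Q hQ).2.1.le
  have hK : 0 < K := by
    rcases Nat.eq_zero_or_pos K with h0 | h0
    · subst h0
      rcases Nat.eq_zero_or_pos r with h5 | h5
      · subst h5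
        simp at hDr
        omega
      · rw [zero_pow (by omega)] at hDr; omega
    · exact h0
  have h4 : K ^ r ≤ K ^ W.card := Nat.pow_le_pow_right hK hcon.le
  omega

lemma num_aux {κ : ℕ} (hκ : 60 ≤ κ) : 36 * κ ^ 2 < 2 ^ ((κ - 5) / 3) := by
  have key : ∀ m, 18 ≤ m → 36 * (3 * m + 8) ^ 2 < 2 ^ m := by
    intro m hm
    induction m, hm using Nat.le_induction with
    | base => norm_num
    | succ m hm ih =>
      have h5 : (3 * (m + 1) + 8) ^ 2 ≤ 2 * (3 * m + 8) ^ 2 := by nlinarith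
      have h6 : 2 ^ (m + 1) = 2 * 2 ^ m := by ring
      rw [h6]
      omega
  have h1 : 18 ≤ (κ - 5) / 3 := by omega
  have h2 : κ ≤ 3 * ((κ - 5) / 3) + 8 := by omega
  calc 36 * κ ^ 2 ≤ 36 * (3 * ((κ - 5) / 3) + 8) ^ 2 := by gcongr
    _ < _ := key _ h1

/-- Sizes of the binomial coefficients used. -/
lemma level_K {L j : ℕ} (hj : j < L) :
    2 ^ ((L - j) * 2 ^ j) ≤ (2 ^ L).choose (2 ^ j) ∧ 2 ^ L ≤ (2 ^ L).choose (2 ^ j) ∧
      2 ^ (2 ^ j) ≤ (2 ^ L).choose (2 ^ j) := by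
  have hK1 : 2 ^ ((L - j) * 2 ^ j) ≤ (2 ^ L).choose (2 ^ j) := by
    have h1 := pow_le_choose_mul (2 ^ (L - j)) (2 ^ j)
    rw [← pow_mul, ← pow_add, Nat.sub_add_cancel hj.le] at h1
    exact h1
  have hexp : L ≤ (L - j) * 2 ^ j := by
    have h1 : j + 1 ≤ 2 ^ j := Nat.lt_two_pow_self
    have h2 : (L - j) * (j + 1) ≤ (L - j) * 2 ^ j := Nat.mul_le_mul_left _ h1
    obtain ⟨k, hk⟩ : ∃ k, L = j + 1 + k := ⟨L - j - 1, by omega⟩
    have h3 : L - j = k + 1 := by omega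
    rw [h3] at h2 ⊢
    nlinarith
  refine ⟨hK1, (Nat.pow_le_pow_right (by norm_num) hexp).trans hK1, ?_⟩
  refine le_trans (Nat.pow_le_pow_right (by norm_num) ?_) hK1
  exact Nat.le_mul_of_pos_left _ (by omega)

/-- Few primes are bad for one set of primes. -/
lemma bad_card {L u K : ℕ} (hKu : 2 ^ u ≤ K) {P : Finset ℕ}
    (hPp : ∀ p ∈ P, p.Prime) (hPy : ∀ p ∈ P, p ≤ 2 ^ (3 * L)) (hPK : P.card.choose u = K)
    {Cand : Finset ℕ} (hC : ∀ Q ∈ Cand, Q.Prime ∧ K < Q) :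
    (Cand.filter (fun Q => 2 * ((P.powersetCard u).image (fun A => prd A % Q)).card < K)).card ≤
      3 * L * K := by
  have hKpos : 0 < K := lt_of_lt_of_le (by positivity) hKu
  set S := P.powersetCard u with hS
  have hSc : S.card = K := by rw [hS, card_powersetCard, hPK]
  set coll : ℕ → ℕ := fun Q =>
    ((S ×ˢ S).filter (fun p => p.1 ≠ p.2 ∧ prd p.1 % Q = prd p.2 % Q)).card with hcoll
  set Bad := Cand.filter (fun Q => 2 * (S.image (fun A => prd A % Q)).card < K) with hBad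
  have hbadcoll : ∀ Q ∈ Bad, K < coll Q := by
    intro Q hQ
    rw [hBad, mem_filter] at hQ
    have h1 := card_sq_le S (fun A => prd A % Q)
    rw [hSc] at h1
    change K ^ 2 ≤ _ * (K + coll Q) at h1
    by_contra hle
    push Not at hle
    have h2 : K ^ 2 ≤ (S.image (fun A => prd A % Q)).card * (2 * K) := by
      refine h1.trans (Nat.mul_le_mul_left _ (by omega))
    have h3 := hQ.2
    nlinarith
  have hdouble : ∑ Q ∈ Cand, coll Q ≤ K ^ 2 * (3 * L) := by
    have e1 : ∀ Q, coll Q = ∑ p ∈ S ×ˢ S,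
        (if p.1 ≠ p.2 ∧ prd p.1 % Q = prd p.2 % Q then 1 else 0) := fun Q => by
      rw [hcoll]; simp only; rw [card_filter]
    simp_rw [e1]
    rw [sum_comm]
    have e2 : ∀ p ∈ S ×ˢ S, ∑ Q ∈ Cand,
        (if p.1 ≠ p.2 ∧ prd p.1 % Q = prd p.2 % Q then 1 else 0) ≤ 3 * L := by
      rintro ⟨A, B⟩ hAB
      rw [mem_product] at hAB
      simp only at hAB ⊢
      rw [hS] at hAB
      simp only [mem_powersetCard] at hAB
      obtain ⟨⟨hA1, hA2⟩, hB1, hB2⟩ := hAB
      by_cases hne : A = B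
      · simp [hne]
      · rw [← card_filter]
        have hAp : ∀ p ∈ A, p.Prime := fun p hp => hPp p (hA1 hp)
        have hBp : ∀ p ∈ B, p.Prime := fun p hp => hPp p (hB1 hp)
        have hne' : prd A ≠ prd B := fun h => hne (prd_inj hAp hBp h)
        have hAle : prd A ≤ (2 ^ (3 * L)) ^ u := prd_le (fun p hp => hPy p (hA1 hp)) hA2
        have hBle : prd B ≤ (2 ^ (3 * L)) ^ u := prd_le (fun p hp => hPy p (hB1 hp)) hB2
        have hApos := prd_pos hAp
        have hBpos := prd_pos hBp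
        refine few_primes (K := K) (D := ((prd A : ℤ) - prd B).natAbs) ?_ ?_ ?_
        · rw [Int.natAbs_pos]
          intro h
          exact hne' (by exact_mod_cast sub_eq_zero.1 h)
        · have h1 : ((prd A : ℤ) - prd B).natAbs < (2 ^ (3 * L)) ^ u := by omega
          refine h1.trans_le ?_
          rw [← pow_mul, mul_comm (3 * L), pow_mul]
          exact Nat.pow_le_pow_left hKu _
        · intro Q hQ
          rw [mem_filter] at hQ
          obtain ⟨hQ1, -, hQ2⟩ := hQ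
          refine ⟨(hC Q hQ1).1, (hC Q hQ1).2, ?_⟩
          rw [← Int.natCast_dvd_natCast, Int.dvd_natAbs]
          exact (Nat.modEq_iff_dvd.1 (hQ2 : prd A ≡ prd B [MOD Q]).symm)
    refine (sum_le_sum e2).trans ?_
    rw [sum_const, card_product, hSc, smul_eq_mul, sq]
  have h1 : K * Bad.card ≤ K ^ 2 * (3 * L) := by
    calc K * Bad.card = ∑ Q ∈ Bad, K := by rw [sum_const, smul_eq_mul, mul_comm]
      _ ≤ ∑ Q ∈ Bad, coll Q := sum_le_sum fun Q hQ => (hbadcoll Q hQ).le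
      _ ≤ ∑ Q ∈ Cand, coll Q := sum_le_sum_of_subset (filter_subset _ _)
      _ ≤ _ := hdouble
  have h2 : K * Bad.card ≤ K * (3 * L * K) := by nlinarith
  exact Nat.le_of_mul_le_mul_left h2 hKpos

/-- Enough candidate primes. -/
lemma cand_card {L K : ℕ} (hL : 60 ≤ L) (hKL : 2 ^ L ≤ K) :
    ∃ Cand : Finset ℕ, (∀ Q ∈ Cand, Q.Prime ∧ K < Q ∧ 16 * Q ^ 3 < K ^ 4) ∧
      4 * K + 4 * (3 * L * K) < Cand.card := by
  have hKpos : 0 < K := lt_of_lt_of_le (by positivity) hKL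
  obtain ⟨κ, hκ⟩ : ∃ κ, κ = Nat.log 2 K := ⟨_, rfl⟩
  have hκ1 : 2 ^ κ ≤ K := by rw [hκ]; exact Nat.pow_log_le_self 2 hKpos.ne'
  have hκ2 : K < 2 ^ (κ + 1) := by rw [hκ]; exact Nat.lt_pow_succ_log_self (by norm_num) K
  have hκL : L ≤ κ := by rw [hκ]; exact (Nat.le_log_iff_pow_le (by norm_num) hKpos.ne').2 hKL
  have hnum := num_aux (κ := κ) (by omega)
  obtain ⟨ω, hω⟩ : ∃ ω, ω = (κ - 5) / 3 := ⟨_, rfl⟩
  rw [← hω] at hnum
  have hω1 : 1 ≤ ω := by omega
  have hω3 : 3 * ω + 5 ≤ κ := by omega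
  obtain ⟨n, hn⟩ : ∃ n, n = K * 2 ^ (ω - 1) := ⟨_, rfl⟩
  have hn1 : 1 ≤ n := by rw [hn]; exact Nat.one_le_iff_ne_zero.2 (by positivity)
  have h2n : 2 * n = K * 2 ^ ω := by
    rw [hn, ← mul_assoc, mul_comm 2 K, mul_assoc]
    congr 1
    rw [← pow_succ']
    congr 1
    omega
  have hXe : 2 * n ≤ 2 ^ (2 * κ) := by
    rw [h2n]
    calc K * 2 ^ ω ≤ 2 ^ (κ + 1) * 2 ^ ω := by gcongr
      _ = 2 ^ (κ + 1 + ω) := by rw [← pow_add]
      _ ≤ 2 ^ (2 * κ) := Nat.pow_le_pow_right (by norm_num) (by omega)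
  have hsup := prime_supply hn1 hXe
  obtain ⟨Pr, hPr⟩ : ∃ Pr, Pr = (range (2 * n + 1)).filter Nat.Prime := ⟨_, rfl⟩
  rw [← hPr] at hsup
  refine ⟨Pr.filter (fun Q => K < Q), ?_, ?_⟩
  · intro Q hQ
    rw [mem_filter, hPr, mem_filter, mem_range] at hQ
    obtain ⟨⟨hQX, hQp⟩, hQK⟩ := hQ
    refine ⟨hQp, hQK, ?_⟩
    have h1 : Q ≤ K * 2 ^ ω := by omega
    calc 16 * Q ^ 3 ≤ 16 * (K * 2 ^ ω) ^ 3 := by gcongr
      _ = K ^ 3 * 2 ^ (3 * ω + 4) := by
          rw [mul_pow, ← pow_mul, pow_add, mul_comm ω 3]; ring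
      _ < K ^ 3 * 2 ^ κ := by
          have : 2 ^ (3 * ω + 4) < 2 ^ κ := Nat.pow_lt_pow_right (by norm_num) (by omega)
          gcongr
      _ ≤ K ^ 3 * K := by gcongr
      _ = K ^ 4 := by ring
  · have hCand1 : Pr.card ≤ (Pr.filter (fun Q => K < Q)).card + K := by
      have h1 : Pr ⊆ (Pr.filter (fun Q => K < Q)) ∪ (Pr.filter (fun Q => ¬ K < Q)) := by
        intro Q hQ
        by_cases h : K < Q
        · exact mem_union_left _ (mem_filter.2 ⟨hQ, h⟩)
        · exact mem_union_right _ (mem_filter.2 ⟨hQ, h⟩)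
      have h2 : (Pr.filter (fun Q => ¬ K < Q)).card ≤ K := by
        have h3 : (Pr.filter (fun Q => ¬ K < Q)) ⊆ Finset.Icc 1 K := by
          intro Q hQ
          rw [mem_filter, hPr, mem_filter] at hQ
          rw [mem_Icc]
          exact ⟨hQ.1.2.one_lt.le, by omega⟩
        calc _ ≤ (Finset.Icc 1 K).card := card_le_card h3
          _ = K := by simp
      exact (card_le_card h1).trans ((card_union_le _ _).trans (by omega))
    by_contra hcon
    push Not at hcon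
    have hc4 : Pr.card + 1 ≤ 18 * κ * K := by
      have h1 : Pr.card ≤ 5 * K + 12 * (L * K) := by
        have : 4 * (3 * L * K) = 12 * (L * K) := by ring
        omega
      have h2 : L * K ≤ κ * K := Nat.mul_le_mul_right _ hκL
      have h3 : 6 * K ≤ 6 * (κ * K) := by
        have : 1 * K ≤ κ * K := Nat.mul_le_mul_right _ (by omega)
        omega
      have h4 : 18 * κ * K = 18 * (κ * K) := by ring
      omega
    have hc5 : K * 2 ^ ω ≤ K * (36 * κ ^ 2) := by
      rw [← h2n]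
      calc 2 * n ≤ 2 * κ * (Pr.card + 1) := hsup
        _ ≤ 2 * κ * (18 * κ * K) := Nat.mul_le_mul_left _ hc4
        _ = K * (36 * κ ^ 2) := by ring
    have := Nat.le_of_mul_le_mul_left hc5 hKpos
    omega

/-- The existence of a good prime at level `u = 2 ^ j`. -/
theorem good_prime {L j : ℕ} (hL : 60 ≤ L) (hj : j < L) (P : Fin 4 → Finset ℕ)
    (hPp : ∀ i, ∀ p ∈ P i, p.Prime) (hPy : ∀ i, ∀ p ∈ P i, p ≤ 2 ^ (3 * L))
    (hPc : ∀ i, (P i).card = 2 ^ L) :
    ∃ Q : ℕ, Q.Prime ∧ (∀ i, Q ∉ P i) ∧ 2 ^ ((L - j) * 2 ^ j) < Q ∧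
      16 * Q ^ 3 < ((2 ^ L).choose (2 ^ j)) ^ 4 ∧ ∀ i, (2 ^ L).choose (2 ^ j) ≤
        2 * (((P i).powersetCard (2 ^ j)).image (fun A => ((prd A : ℕ) : ZMod Q))).card := by
  obtain ⟨hK1, hKL, hKu⟩ := level_K hj
  obtain ⟨K, hK⟩ : ∃ K, K = (2 ^ L).choose (2 ^ j) := ⟨_, rfl⟩
  rw [← hK] at hK1 hKL hKu ⊢
  obtain ⟨Cand, hC, hCc⟩ := cand_card hL hKL
  set Bad : Fin 4 → Finset ℕ := fun i => Cand.filter
    (fun Q => 2 * (((P i).powersetCard (2 ^ j)).image (fun A => prd A % Q)).card < K) with hBad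
  have hBadc : ∀ i, (Bad i).card ≤ 3 * L * K := fun i =>
    bad_card hKu (hPp i) (hPy i) (by rw [hPc i, hK]) fun Q hQ => ⟨(hC Q hQ).1, (hC Q hQ).2.1⟩
  -- choose a good prime
  have hexists : ∃ Q ∈ Cand, (∀ i, Q ∉ P i) ∧ ∀ i, Q ∉ Bad i := by
    by_contra hcon
    push Not at hcon
    have hsub : Cand ⊆ (Finset.univ.biUnion P) ∪ (Finset.univ.biUnion Bad) := by
      intro Q hQ
      rw [mem_union, mem_biUnion, mem_biUnion]
      by_cases h : ∀ i, Q ∉ P i
      · obtain ⟨i, hi⟩ := hcon Q hQ h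
        right; exact ⟨i, mem_univ _, hi⟩
      · push Not at h
        obtain ⟨i, hi⟩ := h
        left; exact ⟨i, mem_univ _, hi⟩
    have hc1 : (Finset.univ.biUnion P).card ≤ 4 * K := by
      refine card_biUnion_le.trans ?_
      rw [sum_congr rfl fun i _ => hPc i, sum_const]
      simp only [card_univ, Fintype.card_fin, smul_eq_mul]
      omega
    have hc2 : (Finset.univ.biUnion Bad).card ≤ 4 * (3 * L * K) := by
      refine card_biUnion_le.trans ((sum_le_sum fun i _ => hBadc i).trans ?_)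
      rw [sum_const]
      simp only [card_univ, Fintype.card_fin, smul_eq_mul]
      exact le_rfl
    have hc3 : Cand.card ≤ 4 * K + 4 * (3 * L * K) :=
      (card_le_card hsub).trans ((card_union_le _ _).trans (by omega))
    omega
  obtain ⟨Q, hQC, hQP, hQB⟩ := hexists
  obtain ⟨hQp, hQK, hQ3⟩ := hC Q hQC
  refine ⟨Q, hQp, hQP, hK1.trans_lt hQK, hQ3, fun i => ?_⟩
  have h1 : ¬ 2 * (((P i).powersetCard (2 ^ j)).image (fun A => prd A % Q)).card < K := fun h =>
    hQB i (by rw [hBad]; exact mem_filter.2 ⟨hQC, h⟩)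
  push Not at h1
  refine h1.trans (Nat.mul_le_mul_left _ ?_)
  -- transfer from remainders to ZMod
  have h2 : (((P i).powersetCard (2 ^ j)).image (fun A => ((prd A : ℕ) : ZMod Q))).image
      (fun z => z.val) = ((P i).powersetCard (2 ^ j)).image (fun A => prd A % Q) := by
    rw [image_image]
    refine image_congr fun A _ => ?_
    simp only [Function.comp, ZMod.val_natCast]
  rw [← h2]
  exact card_image_le

end Vale.Agent.Egypt
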