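import Vale.Agent.Egypt.Defs

namespace Vale.Agent.Egypt

open Finset

/-- Greedy reduction: after few unit fractions the remainder is doubly exponentially small. -/
lemma greedy {x : ℚ} (hx0 : 0 < x) (hx1 : x < 1) (j : ℕ) : ∃ M : Finset ℕ,
    M.card ≤ j + 1 ∧ (∀ m ∈ M, 2 ≤ m) ∧ ∏ m ∈ M, m ≤ 2 ^ (2 ^ (j + 1)) ∧
    0 ≤ x - ∑ m ∈ M, (1 / m : ℚ) ∧ (x - ∑ m ∈ M, (1 / m : ℚ)) * 2 ^ (2 ^ j) < 1 ∧
    ∀ m ∈ M, (m : ℚ) * (x - ∑ m ∈ M, (1 / m : ℚ)) < 1 := by
  induction j with
  | zero =>
    by_cases h : x < 1 / 2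
    · refine ⟨∅, by simp, by simp, by simp, ?_, ?_, by simp⟩
      · simp [hx0.le]
      · simp; linarith
    · push Not at h
      refine ⟨{2}, by simp, by simp, by simp, ?_, ?_, ?_⟩
      · simp; linarith
      · simp; linarith
      · simp; linarith
  | succ j ih =>
    obtain ⟨M, h1, h2, h3, h4, h5, h6⟩ := ih
    set z := x - ∑ m ∈ M, (1 / m : ℚ) with hz
    by_cases hsmall : z * 2 ^ (2 ^ (j + 1)) < 1
    · refine ⟨M, by omega, h2, ?_, h4, hsmall, h6⟩
      refine h3.trans (Nat.pow_le_pow_right (by norm_num) ?_)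
      exact Nat.pow_le_pow_right (by norm_num) (by omega)
    · push Not at hsmall
      have hzpos : 0 < z := by
        by_contra hneg
        push Not at hneg
        have : z * 2 ^ (2 ^ (j + 1)) ≤ 0 := mul_nonpos_of_nonpos_of_nonneg hneg (by positivity)
        linarith
      set n := ⌈1 / z⌉₊ with hn
      have hn1 : 1 / z ≤ n := Nat.le_ceil _
      have hn2 : (n : ℚ) < 1 / z + 1 := Nat.ceil_lt_add_one (by positivity)
      have hzn : 1 ≤ n * z := by rwa [div_le_iff₀ hzpos] at hn1
      have hzn' : ((n : ℚ) - 1) * z < 1 := by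
        have : (n : ℚ) - 1 < 1 / z := by linarith
        rwa [lt_div_iff₀ hzpos] at this
      -- lower bound for n
      have hnbig : (2 : ℚ) ^ (2 ^ j) < n := by
        have h7 : z * 2 ^ (2 ^ j) < z * n := by linarith
        exact lt_of_mul_lt_mul_left h7 hzpos.le
      have hnbig' : 2 ^ (2 ^ j) + 1 ≤ n := by
        have : 2 ^ (2 ^ j) < n := by exact_mod_cast hnbig
        omega
      have hnle : n ≤ 2 ^ (2 ^ (j + 1)) := by
        rw [hn, Nat.ceil_le, div_le_iff₀ hzpos]
        push_cast
        linarith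
      have hn1' : 1 < n := by
        calc 1 ≤ 2 ^ (2 ^ j) := Nat.one_le_two_pow
          _ < n := by omega
      have hnpos : (0 : ℚ) < n := by
        have : 0 < n := by omega
        exact_mod_cast this
      have hnM : n ∉ M := by
        intro hmem
        have := h6 n hmem
        linarith
      have hsum : x - ∑ m ∈ insert n M, (1 / m : ℚ) = z - 1 / n := by
        rw [sum_insert hnM, hz]; ring
      have hznn : 0 ≤ z - 1 / n := by
        rw [sub_nonneg, div_le_iff₀ hnpos]; linarith
      have hn1pos : (0 : ℚ) < (n : ℚ) - 1 := by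
        have : (1 : ℚ) < n := by
          exact_mod_cast hn1'
        linarith
      have hbound : (z - 1 / n) * (n * (n - 1)) < 1 := by
        have e : (z - 1 / n) * (n * ((n : ℚ) - 1)) = n * (((n : ℚ) - 1) * z - 1) + 1 := by
          field_simp; ring
        rw [e]
        have : (n : ℚ) * (((n : ℚ) - 1) * z - 1) < 0 := mul_neg_of_pos_of_neg hnpos (by linarith)
        linarith
      refine ⟨insert n M, ?_, ?_, ?_, ?_, ?_, ?_⟩
      · rw [card_insert_of_notMem hnM]; omega
      · intro m hm
        rcases mem_insert.1 hm with rfl | hm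
        · exact hn1'
        · exact h2 m hm
      · rw [prod_insert hnM]
        calc n * ∏ m ∈ M, m ≤ 2 ^ (2 ^ (j + 1)) * 2 ^ (2 ^ (j + 1)) := Nat.mul_le_mul hnle h3
          _ = 2 ^ (2 ^ (j + 1 + 1)) := by rw [← pow_add]; congr 1; ring
      · rw [hsum]; exact hznn
      · rw [hsum]
        have h9 : ((2 : ℚ) ^ (2 ^ (j + 1))) ≤ n * (n - 1) := by
          have e : (2 : ℚ) ^ (2 ^ (j + 1)) = 2 ^ (2 ^ j) * 2 ^ (2 ^ j) := by
            rw [← pow_add]; congr 1; ring
          rw [e]
          have h10 : (2 : ℚ) ^ (2 ^ j) + 1 ≤ n := by exact_mod_cast hnbig'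
          have h11 : (0 : ℚ) < 2 ^ (2 ^ j) := by positivity
          nlinarith
        calc (z - 1 / n) * 2 ^ (2 ^ (j + 1)) ≤ (z - 1 / n) * (n * (n - 1)) := by gcongr
          _ < 1 := hbound
      · rw [hsum]
        intro m hm
        rcases mem_insert.1 hm with rfl | hm
        · have h12 : (n : ℚ) * (z - 1 / n) = n * z - 1 := by field_simp
          rw [h12]
          have h13 : z < 1 := by
            by_contra hge
            push Not at hge
            have : z * 2 ^ (2 ^ j) ≥ 1 := by
              have : (1 : ℚ) ≤ 2 ^ (2 ^ j) := one_le_pow₀ (by norm_num)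
              nlinarith
            linarith
          linarith
        · have h14 := h6 m hm
          have h15 : (m : ℚ) * (z - 1 / n) ≤ m * z := by
            have : (0 : ℚ) ≤ 1 / n := by positivity
            have : z - 1 / n ≤ z := by linarith
            gcongr
          linarith

end Vale.Agent.Egypt
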