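import Mathlib

namespace Vale.Agent.Egypt

open Finset

section

variable {q : ℕ} [Fact q.Prime]

/-- number of points of the line `x.1 y.1 + x.2 y.2 = c` in the variable `x` -/
lemma line_card {y : ZMod q × ZMod q} (hy : y.1 ≠ 0) (c : ZMod q) :
    (univ.filter (fun x : ZMod q × ZMod q => x.1 * y.1 + x.2 * y.2 = c)).card = q := by
  have h : (univ.filter (fun x : ZMod q × ZMod q => x.1 * y.1 + x.2 * y.2 = c)) =
      univ.image (fun s : ZMod q => ((c - s * y.2) / y.1, s)) := by
    ext ⟨x1, x2⟩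
    simp only [mem_filter, mem_univ, true_and, mem_image, Prod.mk.injEq]
    constructor
    · intro h
      refine ⟨x2, ?_, rfl⟩
      rw [div_eq_iff hy]; linear_combination -h
    · rintro ⟨s, h1, rfl⟩
      rw [← h1]; field_simp; ring
  rw [h, card_image_of_injective _ (fun s s' hs => (Prod.mk.inj hs).2), card_univ, ZMod.card]

/-- two distinct lines meet in at most one point -/
lemma line_inter {y y' : ZMod q × ZMod q} (hyy : y ≠ y') {c : ZMod q} (hc : c ≠ 0) :
    (univ.filter (fun x : ZMod q × ZMod q => x.1 * y.1 + x.2 * y.2 = c ∧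
      x.1 * y'.1 + x.2 * y'.2 = c)).card ≤ 1 := by
  rw [card_le_one]
  rintro ⟨a, b⟩ h ⟨a', b'⟩ h'
  simp only [mem_filter, mem_univ, true_and] at h h'
  obtain ⟨h1, h2⟩ := h
  obtain ⟨h3, h4⟩ := h'
  by_contra hne
  apply hyy
  obtain ⟨y1, y2⟩ := y
  obtain ⟨z1, z2⟩ := y'
  simp only at h1 h2 h3 h4
  have e1 : (a - a') * y1 + (b - b') * y2 = 0 := by linear_combination h1 - h3
  have e2 : (a - a') * z1 + (b - b') * z2 = 0 := by linear_combination h2 - h4
  have hdet : y1 * z2 = y2 * z1 := by
    by_cases ha : a - a' = 0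
    · have hb : b - b' ≠ 0 := by
        intro hb
        exact hne (by rw [sub_eq_zero.1 ha, sub_eq_zero.1 hb])
      rw [ha] at e1 e2
      have e3 : y2 = 0 := by
        have : (b - b') * y2 = 0 := by linear_combination e1
        exact (mul_eq_zero.1 this).resolve_left hb
      have e4 : z2 = 0 := by
        have : (b - b') * z2 = 0 := by linear_combination e2
        exact (mul_eq_zero.1 this).resolve_left hb
      rw [e3, e4]; ring
    · have : (a - a') * (y1 * z2 - y2 * z1) = 0 := by linear_combination z2 * e1 - y2 * e2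
      exact sub_eq_zero.1 ((mul_eq_zero.1 this).resolve_left ha)
  have f1 : c * (y1 - z1) = 0 := by linear_combination (-y1) * h2 + z1 * h1 + b * hdet
  have f2 : c * (y2 - z2) = 0 := by linear_combination (-y2) * h2 + z2 * h1 - a * hdet
  have g1 := sub_eq_zero.1 ((mul_eq_zero.1 f1).resolve_left hc)
  have g2 := sub_eq_zero.1 ((mul_eq_zero.1 f2).resolve_left hc)
  rw [g1, g2]

/-- Sum product covering: four large sets represent every nonzero residue. -/
theorem incidence (S1 T1 S2 T2 : Finset (ZMod q)) (hT1 : (0 : ZMod q) ∉ T1) {c : ZMod q}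
    (hc : c ≠ 0) (h : q ^ 3 < (S1.card * S2.card) * (T1.card * T2.card)) :
    ∃ s1 ∈ S1, ∃ t1 ∈ T1, ∃ s2 ∈ S2, ∃ t2 ∈ T2, s1 * t1 + s2 * t2 = c := by
  by_contra hcon
  push Not at hcon
  set F : Finset (ZMod q × ZMod q) := T1 ×ˢ T2 with hF
  set E : Finset (ZMod q × ZMod q) := S1 ×ˢ S2 with hE
  have hFc : F.card = T1.card * T2.card := card_product _ _
  have hEc : E.card = S1.card * S2.card := card_product _ _
  set N : ZMod q × ZMod q → ℕ := fun x =>
    (F.filter (fun y => x.1 * y.1 + x.2 * y.2 = c)).card with hN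
  have hq0 : 0 < q := (Fact.out : q.Prime).pos
  have hFy : ∀ y ∈ F, y.1 ≠ 0 := by
    intro y hy h0
    rw [hF, mem_product] at hy
    exact hT1 (h0 ▸ hy.1)
  -- first moment
  have m1 : ∑ x, (N x : ℤ) = F.card * q := by
    have : ∑ x, N x = F.card * q := by
      simp only [hN, card_filter]
      rw [sum_comm]
      rw [card_eq_sum_ones, sum_mul]
      refine sum_congr rfl fun y hy => ?_
      have h5 := line_card (hFy y hy) c
      rw [card_filter] at h5
      rw [one_mul]
      exact h5
    exact_mod_cast this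
  -- second moment
  have m2 : ∑ x, (N x : ℤ) ^ 2 ≤ F.card * q + F.card ^ 2 := by
    have h1 : ∀ x, N x ^ 2 = ∑ y ∈ F, ∑ y' ∈ F,
        (if x.1 * y.1 + x.2 * y.2 = c ∧ x.1 * y'.1 + x.2 * y'.2 = c then 1 else 0) := by
      intro x
      simp only [hN, card_filter, sq]
      rw [sum_mul_sum]
      refine sum_congr rfl fun y _ => sum_congr rfl fun y' _ => ?_
      by_cases a : x.1 * y.1 + x.2 * y.2 = c <;> by_cases b : x.1 * y'.1 + x.2 * y'.2 = c <;>
        simp [a, b]
    have h2 : ∑ x, N x ^ 2 ≤ F.card * q + F.card ^ 2 := by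
      simp_rw [h1]
      rw [sum_comm]
      have h3 : ∀ y ∈ F, ∑ x : ZMod q × ZMod q, ∑ y' ∈ F,
          (if x.1 * y.1 + x.2 * y.2 = c ∧ x.1 * y'.1 + x.2 * y'.2 = c then 1 else 0) ≤
          q + F.card := by
        intro y hy
        rw [sum_comm]
        have h4 : ∀ y' ∈ F, ∑ x : ZMod q × ZMod q,
            (if x.1 * y.1 + x.2 * y.2 = c ∧ x.1 * y'.1 + x.2 * y'.2 = c then 1 else 0) ≤
            (if y' = y then q else 0) + 1 := by
          intro y' _
          rw [← card_filter]
          by_cases hyy : y' = y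
          · rw [if_pos hyy, hyy]
            have : (univ.filter (fun x : ZMod q × ZMod q => x.1 * y.1 + x.2 * y.2 = c ∧
                x.1 * y.1 + x.2 * y.2 = c)).card = q := by
              simp only [and_self]
              exact line_card (hFy y hy) c
            rw [this]; omega
          · rw [if_neg hyy, zero_add]
            exact line_inter (fun h => hyy h.symm) hc
        refine (sum_le_sum h4).trans ?_
        rw [sum_add_distrib, sum_ite_eq' F y, if_pos hy]
        simp
      refine (sum_le_sum h3).trans ?_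
      rw [sum_const, smul_eq_mul]
      nlinarith
    exact_mod_cast h2
  -- variance
  have hvar : ∑ x, ((q : ℤ) * N x - F.card) ^ 2 ≤ (q : ℤ) ^ 3 * F.card := by
    have e : ∀ x, ((q : ℤ) * N x - F.card) ^ 2 =
        (q : ℤ) ^ 2 * (N x : ℤ) ^ 2 - 2 * q * F.card * N x + (F.card : ℤ) ^ 2 := fun x => by ring
    simp_rw [e]
    rw [sum_add_distrib, sum_sub_distrib, ← mul_sum, ← mul_sum, m1, sum_const, card_univ,
      Fintype.card_prod, ZMod.card, nsmul_eq_mul]
    push_cast
    have hq2 : (0 : ℤ) ≤ (q : ℤ) ^ 2 := by positivity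
    nlinarith [mul_le_mul_of_nonneg_left m2 hq2]
  have hEsum : ∑ x ∈ E, ((q : ℤ) * N x - F.card) ^ 2 = E.card * (F.card : ℤ) ^ 2 := by
    have : ∀ x ∈ E, ((q : ℤ) * N x - F.card) ^ 2 = (F.card : ℤ) ^ 2 := by
      intro x hx
      have hz : N x = 0 := by
        simp only [hN]
        rw [card_eq_zero, filter_eq_empty_iff]
        intro y hy hxy
        rw [hF, mem_product] at hy
        rw [hE, mem_product] at hx
        exact hcon x.1 hx.1 y.1 hy.1 x.2 hx.2 y.2 hy.2 hxy
      rw [hz]; push_cast; ring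
    rw [sum_congr rfl this, sum_const, nsmul_eq_mul]
  have hle : (E.card : ℤ) * (F.card : ℤ) ^ 2 ≤ (q : ℤ) ^ 3 * F.card := by
    rw [← hEsum]
    exact (sum_le_univ_sum_of_nonneg fun x => sq_nonneg _).trans hvar
  have hFpos : (0 : ℤ) < F.card := by
    rcases Nat.eq_zero_or_pos F.card with h0 | h0
    · rw [← hFc, h0] at h; simp at h
    · exact_mod_cast h0
  have hfin : (E.card : ℤ) * F.card ≤ (q : ℤ) ^ 3 := by
    have : ((E.card : ℤ) * F.card) * F.card ≤ (q : ℤ) ^ 3 * F.card := by
      calc ((E.card : ℤ) * F.card) * F.card = (E.card : ℤ) * (F.card : ℤ) ^ 2 := by ring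
        _ ≤ _ := hle
    exact le_of_mul_le_mul_right this hFpos
  rw [← hEc, ← hFc] at h
  have : (E.card : ℤ) * F.card ≤ (q : ℤ) ^ 3 := hfin
  have h' : ((q : ℤ)) ^ 3 < (E.card : ℤ) * F.card := by exact_mod_cast h
  linarith

end

end Vale.Agent.Egypt
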