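import Vale.Agent.Egypt.Assemble
import Vale.Agent.Egypt.Chain

namespace Vale.Agent.Egypt

open Finset

lemma sum_sj (L : ℕ) : ((∑ j ∈ range L, sj L j : ℕ) : ℝ) ≤ L + 6 * L * (1 + Real.log L) := by
  have h1 : ((∑ j ∈ range L, sj L j : ℕ) : ℝ) ≤ ∑ j ∈ range L, (1 + 6 * L * (1 / ((j : ℝ) + 1))) := by
    rw [← sum_range_reflect, Nat.cast_sum]
    refine sum_le_sum fun j hj => ?_
    rw [mem_range] at hj
    have h2 : L - (L - 1 - j) = j + 1 := by omega
    unfold sj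
    rw [h2]
    push_cast
    have h3 : ((6 * L / (j + 1) : ℕ) : ℝ) ≤ (6 * L : ℕ) / ((j + 1 : ℕ) : ℝ) := Nat.cast_div_le
    push_cast at h3
    have h4 : (6 : ℝ) * L * (1 / ((j : ℝ) + 1)) = 6 * L / (j + 1) := by ring
    rw [h4]
    linarith
  refine h1.trans ?_
  rw [sum_add_distrib, sum_const, card_range, nsmul_eq_mul, mul_one, ← mul_sum]
  have h5 : ∑ j ∈ range L, (1 / ((j : ℝ) + 1)) = ((harmonic L : ℚ) : ℝ) := by
    unfold harmonic
    push_cast
    refine sum_congr rfl fun j _ => ?_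
    rw [one_div]
  rw [h5]
  have h6 := harmonic_le_one_add_log L
  have h7 : (0 : ℝ) ≤ 6 * L := by positivity
  nlinarith [mul_le_mul_of_nonneg_left h6 h7]

/-- The quantitative statement in terms of `L`. -/
theorem expansion {L : ℕ} (hL : 60 ≤ L) {a b : ℕ} (ha : 1 ≤ a) (hab : a < b)
    (hb : b ≤ 2 ^ (2 ^ L)) : ∃ T : Finset ℕ, (T.card : ℝ) ≤ 461 * L * Real.log L ∧
      (∀ n ∈ T, 2 ≤ n) ∧ ∑ n ∈ T, (1 / n : ℚ) = a / b := by
  obtain ⟨R, G, hR, hRle, hG, hrep⟩ := chain hL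
  set l := Nat.clog 2 (12 * L) with hl
  have hl1 : 12 * L ≤ 2 ^ l := Nat.le_pow_clog (by norm_num) _
  have hl2 : 2 ^ l ≤ 24 * L := by
    have h1 : 2 ^ (l.pred) < 12 * L := Nat.pow_pred_clog_lt_self (by norm_num) (by omega)
    have h2 : 0 < l := Nat.clog_pos (by norm_num) (by omega)
    obtain ⟨l', hl'⟩ : ∃ l', l = l' + 1 := ⟨l - 1, by omega⟩
    rw [hl', Nat.pred_succ] at h1
    rw [hl', pow_succ]
    omega
  have hlL : l ≤ L := by
    have h24 : 24 * L ≤ 2 ^ L := by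
      have key : ∀ n, 60 ≤ n → 24 * n ≤ 2 ^ n := by
        intro n hn
        induction n, hn using Nat.le_induction with
        | base => norm_num
        | succ n hn ih => rw [pow_succ]; omega
      exact key L hL
    exact (Nat.pow_le_pow_iff_right (by norm_num)).1 (hl2.trans h24)
  have hRj : R ≤ 2 ^ (2 ^ (L + l)) := by
    refine hRle.trans (Nat.pow_le_pow_right (by norm_num) ?_)
    rw [pow_add]
    calc 12 * L * 2 ^ L ≤ 2 ^ l * 2 ^ L := Nat.mul_le_mul_right _ hl1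
      _ = 2 ^ L * 2 ^ l := by ring
  have hGb : b * 2 ^ (2 ^ (L + l + 1)) ≤ G := by
    refine le_trans ?_ hG
    calc b * 2 ^ (2 ^ (L + l + 1)) ≤ 2 ^ (2 ^ L) * 2 ^ (48 * L * 2 ^ L) := by
          refine Nat.mul_le_mul hb (Nat.pow_le_pow_right (by norm_num) ?_)
          rw [pow_succ, pow_add]
          calc 2 ^ L * 2 ^ l * 2 ≤ 2 ^ L * (24 * L) * 2 := by gcongr
            _ = 48 * L * 2 ^ L := by ring
      _ = 2 ^ (2 ^ L * (1 + 48 * L)) := by rw [← pow_add]; congr 1; ring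
  obtain ⟨T, hT1, hT2, hT3⟩ := assemble hR hRj hGb hrep ha hab
  refine ⟨T, ?_, hT2, hT3⟩
  have h1 : (T.card : ℝ) ≤ ((L + l + 1 + 2 * (5 + 198 * L + 2 * ∑ j ∈ range L, sj L j) : ℕ) : ℝ) := by
    exact_mod_cast hT1
  have h2 := sum_sj L
  have h3 : (l : ℝ) ≤ L := by exact_mod_cast hlL
  have hLr : (60 : ℝ) ≤ L := by exact_mod_cast hL
  have hlog : 1 ≤ Real.log L := by
    rw [Real.le_log_iff_exp_le (by linarith)]
    have := Real.exp_one_lt_d9
    linarith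
  push_cast at h1 h2
  have h4 : (L : ℝ) ≤ L * Real.log L := by nlinarith
  have h5 : (11 : ℝ) ≤ 11 * (L * Real.log L) := by nlinarith
  nlinarith

end Vale.Agent.Egypt
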