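import Mathlib

namespace Vale.Agent.Egypt

open Finset

/-- Chebyshev-type lower bound for the number of primes. -/
lemma prime_supply {n e : ℕ} (hn : 1 ≤ n) (he : 2 * n ≤ 2 ^ e) :
    2 * n ≤ e * (((range (2 * n + 1)).filter Nat.Prime).card + 1) := by
  set π := ((range (2 * n + 1)).filter Nat.Prime).card with hπ
  have h1 : 4 ^ n ≤ 2 * n * n.centralBinom := Nat.four_pow_le_two_mul_self_mul_centralBinom n hn
  have h2 : n.centralBinom ≤ (2 * n) ^ π := by
    have e1 : n.centralBinom = ∏ p ∈ (range (2 * n + 1)).filter Nat.Prime,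
        p ^ (n.centralBinom.factorization p) := by
      rw [prod_filter]
      rw [← Nat.prod_pow_factorization_centralBinom n]
      conv_rhs => rw [Nat.prod_pow_factorization_centralBinom n]
      refine prod_congr rfl fun p _ => ?_
      by_cases hp : p.Prime
      · rw [if_pos hp]
      · rw [if_neg hp, Nat.factorization_eq_zero_of_not_prime _ hp, pow_zero]
    rw [e1, hπ, ← prod_const]
    refine prod_le_prod' fun p _ => ?_
    have : n.centralBinom = (2 * n).choose n := Nat.centralBinom_eq_two_mul_choose n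
    rw [this]
    exact Nat.pow_factorization_choose_le (by omega)
  have h3 : 2 ^ (2 * n) ≤ 2 ^ (e * (π + 1)) := by
    calc 2 ^ (2 * n) = 4 ^ n := by rw [pow_mul]; norm_num
      _ ≤ 2 * n * (2 * n) ^ π := h1.trans (Nat.mul_le_mul_left _ h2)
      _ = (2 * n) ^ (π + 1) := by ring
      _ ≤ (2 ^ e) ^ (π + 1) := Nat.pow_le_pow_left he _
      _ = 2 ^ (e * (π + 1)) := by rw [← pow_mul]
  exact (Nat.pow_le_pow_iff_right (by norm_num)).1 h3

lemma pow_le_choose_mul (k u : ℕ) : k ^ u ≤ (k * u).choose u := by
  have h1 : k ^ u * u.factorial ≤ (k * u).descFactorial u := by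
    have e1 : u.factorial = ∏ i ∈ range u, (u - i) := by
      rw [← Nat.descFactorial_self, Nat.descFactorial_eq_prod_range]
    rw [Nat.descFactorial_eq_prod_range, e1, ← card_range u, ← prod_const, card_range,
      ← prod_mul_distrib]
    refine prod_le_prod' fun i hi => ?_
    rw [mem_range] at hi
    rw [Nat.mul_sub]
    rcases Nat.eq_zero_or_pos k with h0 | h0
    · subst h0; simp
    · have : i ≤ k * i := Nat.le_mul_of_pos_left i h0
      omega
  rw [Nat.descFactorial_eq_factorial_mul_choose, mul_comm] at h1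
  exact Nat.le_of_mul_le_mul_left h1 (Nat.factorial_pos u)

end Vale.Agent.Egypt
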