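import Vale.Agent.Egypt.GoodPrime
import Vale.Agent.Egypt.Incidence
import Vale.Agent.Egypt.Defs

namespace Vale.Agent.Egypt

open Finset

/-- The one-step covering property. -/
def Cover (R Q B : ℕ) : Prop :=
  ∀ c : ℕ, ∃ A : Finset ℕ, A.card ≤ 2 ∧ (∀ a ∈ A, a ∣ R) ∧ ∑ a ∈ A, a ≤ B ∧
    (∑ a ∈ A, a) ≡ c [MOD Q]

lemma prd_dvd_of_subset {A B : Finset ℕ} (h : A ⊆ B) : prd A ∣ prd B :=
  prod_dvd_prod_of_subset _ _ _ h

lemma prd_union {A B : Finset ℕ} (h : Disjoint A B) : prd (A ∪ B) = prd A * prd B :=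
  prod_union h

lemma not_dvd_prd {Q : ℕ} (hQ : Q.Prime) {A : Finset ℕ} (hA : ∀ p ∈ A, p.Prime) (hQA : Q ∉ A) :
    ¬ Q ∣ prd A := by
  intro h
  obtain ⟨p, hp, hd⟩ := (hQ.prime.dvd_finsetProd_iff _).1 h
  exact hQA (((Nat.prime_dvd_prime_iff_eq hQ (hA p hp)).1 hd) ▸ hp)

theorem cover_level {L j Q : ℕ} (P : Fin 4 → Finset ℕ)
    (hPp : ∀ i, ∀ p ∈ P i, p.Prime) (hPy : ∀ i, ∀ p ∈ P i, p ≤ 2 ^ (3 * L))
    (hPd : ∀ i i', i ≠ i' → Disjoint (P i) (P i')) (hQ : Q.Prime) (hQP : ∀ i, Q ∉ P i)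
    (hQ3 : 16 * Q ^ 3 < ((2 ^ L).choose (2 ^ j)) ^ 4)
    (hcard : ∀ i, (2 ^ L).choose (2 ^ j) ≤
        2 * (((P i).powersetCard (2 ^ j)).image (fun A => ((prd A : ℕ) : ZMod Q))).card) :
    Cover (prd (univ.biUnion P)) Q (2 ^ (1 + 6 * L * 2 ^ j)) := by
  have hfact : Fact Q.Prime := ⟨hQ⟩
  intro c
  by_cases hc : (c : ZMod Q) = 0
  · refine ⟨∅, by simp, by simp, by simp, ?_⟩
    rw [sum_empty]
    exact ((ZMod.natCast_eq_natCast_iff 0 c Q).1 (by rw [hc]; simp))
  · set I : Fin 4 → Finset (ZMod Q) := fun i =>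
      ((P i).powersetCard (2 ^ j)).image (fun A => ((prd A : ℕ) : ZMod Q)) with hI
    have h0 : (0 : ZMod Q) ∉ I 1 := by
      intro h
      rw [hI] at h
      simp only [mem_image, mem_powersetCard] at h
      obtain ⟨A, ⟨hA, -⟩, hA0⟩ := h
      rw [ZMod.natCast_eq_zero_iff] at hA0
      exact not_dvd_prd hQ (fun p hp => hPp 1 p (hA hp)) (fun h => hQP 1 (hA h)) hA0
    have hbig : Q ^ 3 < ((I 0).card * (I 2).card) * ((I 1).card * (I 3).card) := by
      have h1 : ((2 ^ L).choose (2 ^ j)) ^ 4 ≤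
          (2 * (I 0).card) * (2 * (I 2).card) * ((2 * (I 1).card) * (2 * (I 3).card)) := by
        calc ((2 ^ L).choose (2 ^ j)) ^ 4 = (2 ^ L).choose (2 ^ j) * (2 ^ L).choose (2 ^ j) *
              ((2 ^ L).choose (2 ^ j) * (2 ^ L).choose (2 ^ j)) := by ring
          _ ≤ _ := by
            have a0 := hcard 0
            have a1 := hcard 1
            have a2 := hcard 2
            have a3 := hcard 3
            gcongr
      have h2 : (2 * (I 0).card) * (2 * (I 2).card) * ((2 * (I 1).card) * (2 * (I 3).card)) =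
          16 * (((I 0).card * (I 2).card) * ((I 1).card * (I 3).card)) := by ring
      rw [h2] at h1
      omega
    obtain ⟨s1, hs1, t1, ht1, s2, hs2, t2, ht2, heq⟩ := incidence (I 0) (I 1) (I 2) (I 3) h0 hc hbig
    rw [hI] at hs1 ht1 hs2 ht2
    simp only [mem_image, mem_powersetCard] at hs1 ht1 hs2 ht2
    obtain ⟨A0, ⟨hA0, hA0c⟩, rfl⟩ := hs1
    obtain ⟨A1, ⟨hA1, hA1c⟩, rfl⟩ := ht1
    obtain ⟨A2, ⟨hA2, hA2c⟩, rfl⟩ := hs2
    obtain ⟨A3, ⟨hA3, hA3c⟩, rfl⟩ := ht2
    have d01 : Disjoint A0 A1 := (hPd 0 1 (by decide)).mono hA0 hA1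
    have d23 : Disjoint A2 A3 := (hPd 2 3 (by decide)).mono hA2 hA3
    have hp01 : ∀ p ∈ A0 ∪ A1, p.Prime := by
      intro p hp
      rcases mem_union.1 hp with h | h
      · exact hPp 0 p (hA0 h)
      · exact hPp 1 p (hA1 h)
    have hp23 : ∀ p ∈ A2 ∪ A3, p.Prime := by
      intro p hp
      rcases mem_union.1 hp with h | h
      · exact hPp 2 p (hA2 h)
      · exact hPp 3 p (hA3 h)
    have hne : prd A0 * prd A1 ≠ prd A2 * prd A3 := by
      rw [← prd_union d01, ← prd_union d23]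
      intro h
      have h1 := prd_inj hp01 hp23 h
      have h2 : A0.Nonempty := by
        rw [← card_pos, hA0c]; positivity
      obtain ⟨p, hp⟩ := h2
      have h3 : p ∈ A2 ∪ A3 := h1 ▸ mem_union_left _ hp
      rcases mem_union.1 h3 with h | h
      · exact disjoint_left.1 (hPd 0 2 (by decide)) (hA0 hp) (hA2 h)
      · exact disjoint_left.1 (hPd 0 3 (by decide)) (hA0 hp) (hA3 h)
    have hle : ∀ (i : Fin 4) (A : Finset ℕ), A ⊆ P i → A.card = 2 ^ j →
        prd A ≤ 2 ^ (3 * L * 2 ^ j) := by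
      intro i A hA hAc
      rw [pow_mul 2 (3 * L)]
      exact prd_le (fun p hp => hPy i p (hA hp)) hAc
    have hsubset : ∀ i, P i ⊆ univ.biUnion P := fun i => subset_biUnion_of_mem P (mem_univ i)
    refine ⟨{prd A0 * prd A1, prd A2 * prd A3}, card_le_two, ?_, ?_, ?_⟩
    · intro a ha
      rw [mem_insert, mem_singleton] at ha
      rcases ha with rfl | rfl
      · rw [← prd_union d01]
        exact prd_dvd_of_subset (union_subset (hA0.trans (hsubset 0)) (hA1.trans (hsubset 1)))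
      · rw [← prd_union d23]
        exact prd_dvd_of_subset (union_subset (hA2.trans (hsubset 2)) (hA3.trans (hsubset 3)))
    · rw [sum_pair hne]
      have b0 := hle 0 A0 hA0 hA0c
      have b1 := hle 1 A1 hA1 hA1c
      have b2 := hle 2 A2 hA2 hA2c
      have b3 := hle 3 A3 hA3 hA3c
      calc prd A0 * prd A1 + prd A2 * prd A3 ≤
            2 ^ (3 * L * 2 ^ j) * 2 ^ (3 * L * 2 ^ j) + 2 ^ (3 * L * 2 ^ j) * 2 ^ (3 * L * 2 ^ j) := by
            gcongr
        _ = 2 ^ (1 + 6 * L * 2 ^ j) := by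
            rw [← two_mul, ← pow_add, ← pow_succ']
            congr 1; ring
    · rw [sum_pair hne, ← ZMod.natCast_eq_natCast_iff]
      push_cast
      exact heq

lemma rep_double {R G k : ℕ} (h : Rep R G k) : Rep R (2 * G) (k + 1) := by
  intro n hn
  obtain ⟨S, hS1, hS2, hS3⟩ := h (n / 2) (by omega)
  set S' := S.image (fun s => 2 * s) with hS'
  have hinj : Set.InjOn (fun s => 2 * s) (S : Set ℕ) := fun a _ b _ hab => by
    simp only at hab; omega
  have hcard : S'.card = S.card := card_image_of_injOn hinj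
  have hsum : ∑ s ∈ S', s = 2 * (n / 2) := by
    rw [hS', sum_image hinj, ← mul_sum, hS3]
  have hdvd : ∀ s ∈ S', s ∣ R * (2 * G) := by
    intro s hs
    rw [hS', mem_image] at hs
    obtain ⟨r, hr, rfl⟩ := hs
    have := mul_dvd_mul_left 2 (hS2 r hr)
    rwa [show 2 * (R * G) = R * (2 * G) by ring] at this
  rcases Nat.mod_two_eq_zero_or_one n with h0 | h1
  · exact ⟨S', by omega, hdvd, by omega⟩
  · have hnot : 1 ∉ S' := by
      rw [hS', mem_image]
      rintro ⟨r, -, hr⟩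
      omega
    refine ⟨insert 1 S', ?_, ?_, ?_⟩
    · rw [card_insert_of_notMem hnot]; omega
    · intro s hs
      rcases mem_insert.1 hs with rfl | hs
      · exact one_dvd _
      · exact hdvd s hs
    · rw [sum_insert hnot]; omega

lemma rep_pow_two (R m : ℕ) : Rep R (2 ^ m) m := by
  induction m with
  | zero =>
    intro n hn
    refine ⟨∅, by simp, by simp, ?_⟩
    simp at hn ⊢
    omega
  | succ m ih =>
    rw [pow_succ']
    exact rep_double ih

lemma rep_step {R G k Q B : ℕ} (h : Rep R G k) (hQ : Q.Prime) (hQR : ¬ Q ∣ R)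
    (hcov : Cover R Q B) (hB : B ≤ G) : Rep R (G * Q) (k + 2) := by
  intro n hn
  by_cases hnG : n < G
  · obtain ⟨S, h1, h2, h3⟩ := h n hnG
    refine ⟨S, by omega, fun s hs => ?_, h3⟩
    exact (h2 s hs).trans ⟨Q, by ring⟩
  · push Not at hnG
    obtain ⟨A, hA1, hA2, hA3, hA4⟩ := hcov n
    have hle : ∑ a ∈ A, a ≤ n := by omega
    have hdvd : Q ∣ n - ∑ a ∈ A, a := (Nat.modEq_iff_dvd' hle).1 hA4
    obtain ⟨n', hn'⟩ := hdvd
    have hn'G : n' < G := by
      have h1 : Q * n' ≤ n := by omega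
      have h2 : Q * n' < Q * G := by
        calc Q * n' ≤ n := h1
          _ < G * Q := hn
          _ = Q * G := by ring
      exact lt_of_mul_lt_mul_left h2 (Nat.zero_le _)
    obtain ⟨S, hS1, hS2, hS3⟩ := h n' hn'G
    set S' := S.image (fun s => Q * s) with hS'
    have hinj : Set.InjOn (fun s => Q * s) (S : Set ℕ) := fun a _ b _ hab =>
      Nat.eq_of_mul_eq_mul_left hQ.pos hab
    have hcard : S'.card = S.card := card_image_of_injOn hinj
    have hsum : ∑ s ∈ S', s = Q * n' := by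
      rw [hS', sum_image hinj, ← mul_sum, hS3]
    have hdisj : Disjoint A S' := by
      rw [disjoint_left]
      intro a ha ha'
      rw [hS', mem_image] at ha'
      obtain ⟨r, -, hr⟩ := ha'
      exact hQR ((Dvd.intro _ hr).trans (hA2 a ha))
    refine ⟨A ∪ S', ?_, ?_, ?_⟩
    · have := card_union_le A S'
      omega
    · intro s hs
      rcases mem_union.1 hs with h1 | h1
      · exact (hA2 s h1).trans ⟨G * Q, by ring⟩
      · rw [hS', mem_image] at h1
        obtain ⟨r, hr, rfl⟩ := h1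
        have := mul_dvd_mul_left Q (hS2 r hr)
        rwa [show Q * (R * G) = R * (G * Q) by ring] at this
    · rw [sum_union hdisj, hsum]
      omega

lemma rep_iter {R G k Q B : ℕ} (h : Rep R G k) (hQ : Q.Prime) (hQR : ¬ Q ∣ R)
    (hcov : Cover R Q B) (hB : B ≤ G) (s : ℕ) : Rep R (G * Q ^ s) (k + 2 * s) := by
  induction s with
  | zero => simpa using h
  | succ s ih =>
    have h1 : B ≤ G * Q ^ s := hB.trans (Nat.le_mul_of_pos_right _ (pow_pos hQ.pos _))
    have := rep_step ih hQ hQR hcov h1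
    rw [mul_assoc, ← pow_succ] at this
    exact this

end Vale.Agent.Egypt
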